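import Crest.Agent.X261.Gauss.Defs
import Crest.Agent.X261.Rn.Defs

/-!
# Row 261, GAUSS (helper56), file `Stm`: the statements of the pieces

* `EtaStmt`    : SUB + fibre primitives : the compact fibres are characteristic;
* `RkStmt`     : the span of a closed form is constant along characteristic curves;
* `IGStmt`, `PolShStmt` : inputs from the group side and from RELN;
* `GaussStmt`  : the theorem of the package.
-/

set_option autoImplicit false
set_option linter.unusedSectionVars false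
set_option linter.dupNamespace false

open Set Filter Topology Complex Matrix MeasureTheory
open scoped ENNReal InnerProductSpace

namespace Crest.Agent.X261.Gauss

open Crest.Agent.R275.Geo Crest.Agent.R275.Core144
open Crest.Agent.R273.UCov_914 Crest.Agent.R273.Defs_333
open Crest.Agent.R273.Fock_243 (FI eW iW ep iW_add iW_smul)
open Crest.Agent.R189 (Amen)
open Crest.Agent.X261.Top (Tube Fol Pol)
open Crest.Agent.X261.Cov.A (push prj)

noncomputable section

/-- the characteristic subspace -/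
def KerS {n q : ℕ} {H : Type*} [AddCommMonoid H] [Module ℂ H] (θ : Fin q → Fin n → ℂ)
    (S : FI n → H) : Submodule ℂ (Fin n → ℂ) where
  carrier := {w | KerP θ S w}
  add_mem' {a b} ha hb := ⟨fun k => by rw [dotProduct_add, ha.1 k, hb.1 k, add_zero], by
    have : mv (iW (a + b)) S = mv (iW a) S + mv (iW b) S := by
      ext I
      simp [mv, iW_add, add_smul, Finset.sum_add_distrib]
    rw [this, ha.2, hb.2, add_zero]⟩
  zero_mem' := ⟨fun k => dotProduct_zero _, by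
    have : iW (0 : Fin n → ℂ) = 0 := by simpa using iW_smul (0 : ℂ) (0 : Fin n → ℂ)
    ext I
    simp [mv, this]⟩
  smul_mem' c a ha := ⟨fun k => by rw [dotProduct_smul, ha.1 k, smul_zero], by
    have : mv (iW (c • a)) S = c • mv (iW a) S := by
      ext I
      simp [mv, iW_smul, Finset.smul_sum, smul_smul]
    rw [this, ha.2, smul_zero]⟩

theorem mem_KerS {n q : ℕ} {H : Type*} [AddCommMonoid H] [Module ℂ H] {θ : Fin q → Fin n → ℂ}
    {S : FI n → H} {w : Fin n → ℂ} : w ∈ KerS θ S ↔ KerP θ S w := Iff.rfl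

/-- ETA -/
def EtaStmt : Prop :=
  ∀ (n : ℕ) (X : Type) [TopologicalSpace X] [T2Space X] (A : Atl n X) (Γ : Type) [Group Γ]
    (D : MonD A Γ) (N : Subgroup Γ) [N.Normal] (q : ℕ) (H : Type) [NormedAddCommGroup H]
    [InnerProductSpace ℂ H] (Φ : Frm D q H) (U : Up Φ N) (p : ℕ)
    (𝒯 : Tube ((push D (QuotientGroup.mk' N)).atl (Γ ⧸ N)) (Γ ⧸ N) p),
    ∀ x ∈ 𝒯.M0, ∀ e ∈ U.T, prj D (QuotientGroup.mk' N) e ∈ 𝒯.T x → ∀ i, D.pr e ∈ (A.e i).source →
      ∀ w : Fin n → ℂ,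
        (∀ k, dV ((push D (QuotientGroup.mk' N)).atl (Γ ⧸ N)) (i, QuotientGroup.mk' N (D.co i e))
          (𝒯.π x) (prj D (QuotientGroup.mk' N) e) k ⬝ᵥ w = 0) → Φ.Ker i e w

/-- RK (flat) -/
def RkStmt : Prop :=
  ∀ (n q : ℕ) (H : Type) [NormedAddCommGroup H] [InnerProductSpace ℂ H] [CompleteSpace H]
    (θ : Cn n → Fin q → Fin n → ℂ) (S : Cn n → FI n → H) (z₀ : Cn n) (w : Fin n → ℂ),
    (∀ k b, AnalyticAt ℂ (fun z => θ z k b) z₀) → (∀ I, AnalyticAt ℂ (fun z => S z I) z₀) →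
    (∀ᶠ z in 𝓝 z₀, ∑ b, mv (eW (ep b))
      (fun I => fderiv ℂ (fun y => S y I) z (EuclideanSpace.single b 1)) = 0) →
    (∀ᶠ z in 𝓝 z₀, Module.finrank ℂ (KerS (θ z₀) (S z₀)) ≤ Module.finrank ℂ (KerS (θ z) (S z))) →
    KerP (θ z₀) (S z₀) w →
    ∃ γ : ℝ → Cn n, γ 0 = z₀ ∧ HasDerivAt γ (WithLp.toLp 2 w) 0 ∧
      ∀ᶠ t in 𝓝 (0 : ℝ), ∀ I, S (γ t) I ∈ Submodule.span ℂ (range (S z₀))

/-- the non-discrete case of the trichotomy, for amenable groups -/
def IGStmt : Prop :=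
  ∀ (G : Type) [Group G] (V : Type) [NormedAddCommGroup V] [NormedSpace ℝ V], Grp.JN G → Amen G →
    Loc.IG G V → ∀ K : Subgroup G, K.Normal → Infinite K → K.FG → Grp.VInd K

/-- the weights with a pole from the local shell -/
def PolShStmt : Prop :=
  ∀ (n : ℕ), 1 ≤ n → ∀ (X : Type) [TopologicalSpace X] [T2Space X] (A : Atl n X)
    [Finite A.ι] (G : Type) [Group G] (D : MonD A G), ConnectedSpace (D.cov G) →
    ∀ (p : ℕ) (F : Fol D p) (h : HM F.L) (T : Eqv.TP volume (Ans.HA.of (D.atl G)) G),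
      T.wt = Rn.wtD D h → (∀ x, T.φ x ≤ 0) → Rn.Shell F.T T → Nonempty (Pol F h)

/-- GAUSS -/
def GaussStmt : Prop :=
  ∀ (n : ℕ) (X : Type) [TopologicalSpace X] [T2Space X] [CompactSpace X]
    (A : Atl n X) [Finite A.ι] (Γ : Type) [Group Γ] (D : MonD A Γ), ConnectedSpace (D.cov Γ) →
    ∀ (N : Subgroup Γ) [N.Normal], Grp.JN (Γ ⧸ N) → Amen (Γ ⧸ N) →
    ∀ M : Subgroup Γ, (M.map (QuotientGroup.mk' N)).Normal →
      Infinite (M.map (QuotientGroup.mk' N)) → (M.map (QuotientGroup.mk' N)).FG →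
      ¬ Grp.VInd (M.map (QuotientGroup.mk' N)) →
    ∀ (q : ℕ) (H : Type) [NormedAddCommGroup H] [InnerProductSpace ℂ H] [CompleteSpace H]
      (Φ : Frm D q H), Up Φ N → Φ.NoFix M →
    ∀ (p : ℕ) (F : Fol (push D (QuotientGroup.mk' N)) p) (h : HM F.L), Nonempty (Pol F h)

end

end Crest.Agent.X261.Gauss
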