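import Crest.Agent.X261.Top.Defs
import Crest.Agent.X261.Cov.A
import Crest.Agent.X261.Grp.Defs

/-!
# Row 261, GAUSS (helper56), file `Defs`: the input of the Gauss map argument

Objects on the cover `D.cov G` are families over `X` indexed by a chart `i` and a sheet `v : G`.

* `mv B S`     : a matrix acting on a vector valued form;
* `Frm D q H`  : local holomorphic maps `a` to `ℂ^q` with a common differential, and a closed
                 holomorphic equivariant `H`-valued `(q+1)`-form `S` divisible by `τ = da`;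
* `Frm.Ker`    : the characteristic directions `ker da ∩ ker S`;
* `Frm.NoFix`, `Frm.Eta` : the two global properties used on the quotient cover;
* `Up`         : the extra data on the big cover (global `a`, `SUB`, fibre primitives).
-/

set_option autoImplicit false
set_option linter.unusedSectionVars false
set_option linter.dupNamespace false

open Set Filter Topology Complex Matrix MeasureTheory
open scoped ENNReal InnerProductSpace

namespace Crest.Agent.X261.Gauss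

open Crest.Agent.R275.Geo Crest.Agent.R275.Core144
open Crest.Agent.R275.OmT75 (dl)
open Crest.Agent.R273.UCov_914
open Crest.Agent.R273.Fock_243 (FI Gam eW iW ep)
open Crest.Agent.R281.Kd_22 (Hm)
open Crest.Agent.X261.Top (Tube dW HolV)

noncomputable section

variable {n : ℕ}

/-- a matrix acting on a vector valued form -/
def mv {H : Type*} [AddCommMonoid H] [Module ℂ H] (B : Matrix (FI n) (FI n) ℂ) (S : FI n → H) :
    FI n → H := fun I => ∑ J, B I J • S J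

variable {X : Type} [TopologicalSpace X] {A : Atl n X} {G : Type} [Group G]

/-- the differentials of the components of `f` in the chart `i` -/
def dV (A : Atl n X) (i : A.ι) {q : ℕ} (f : X → Cn q) (x : X) : Fin q → Fin n → ℂ :=
  fun k b => dl A i b (fun y => f y k) x

theorem dW_eq (i : A.ι) {q : ℕ} (f : X → Cn q) (x : X) : dW A i f x = Top.wdg (dV A i f x) := rfl

/-- `w` is killed by the covectors `θ` and by the form `S` -/
def KerP {q : ℕ} {H : Type*} [AddCommMonoid H] [Module ℂ H] (θ : Fin q → Fin n → ℂ)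
    (S : FI n → H) (w : Fin n → ℂ) : Prop :=
  (∀ k, θ k ⬝ᵥ w = 0) ∧ mv (iW w) S = 0

/-- the local maps `a` and the form `S` -/
structure Frm (D : MonD A G) (q : ℕ) (H : Type) [NormedAddCommGroup H] [InnerProductSpace ℂ H]
    where
  a : A.ι → G → X → Cn q
  a_hol : ∀ i v k, HolAt A i univ fun x => a i v x k
  a_tr : ∀ i j v, ∀ x ∈ (A.e i).source ∩ (A.e j).source, ∃ l : Cn q,
    ∀ y ∈ (A.e i).source ∩ (A.e j).source, a i v y = a j (D.c i j x * v) y + l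
  a_eqv : ∀ g : G, ∃ L : Matrix (Fin q) (Fin q) ℂ, ‖L.det‖ = 1 ∧ ∀ i v, ∃ l : Fin q → ℂ,
    ∀ x ∈ (A.e i).source, ∀ k, a i (v * g⁻¹) x k = ∑ k', L k k' * a i v x k' + l k
  tau_ne : ∃ i v, ∃ x ∈ (A.e i).source, dW A i (a i v) x ≠ 0
  S : A.ι → G → X → FI n → H
  S_hol : ∀ i v I, DifferentiableOn ℂ (fun z => S i v ((A.e i).symm z) I) (A.e i).target
  S_tr : ∀ i j v, ∀ x ∈ (A.e i).source ∩ (A.e j).source,
    S i v x = mv (Gam (Jm A i j x)ᵀ) (S j (D.c i j x * v) x)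
  ρ : G →* (H ≃ₗᵢ[ℂ] H)
  S_eqv : ∀ (g : G) i v, ∀ x ∈ (A.e i).source, ∀ I, S i (v * g⁻¹) x I = ρ g (S i v x I)
  deg : ∀ i v, ∀ x ∈ (A.e i).source, ∀ I : FI n, I.card ≠ q + 1 → S i v x I = 0
  hor : ∀ i v, ∀ x ∈ (A.e i).source, ∀ k, mv (eW (dV A i (a i v) x k)) (S i v x) = 0
  closed : ∀ i v, ∀ x ∈ (A.e i).source,
    ∑ b, mv (eW (ep b)) (fun I => dl A i b (fun y => S i v y I) x) = 0
  S_ne : ∃ i v, ∃ x ∈ (A.e i).source, S i v x ≠ 0
  /-- bounded fibre energy -/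
  bd : ∀ i v, ∀ z₀ ∈ (A.e i).target, ∃ N ∈ 𝓝 z₀, ∃ C : ℝ≥0∞, C < ⊤ ∧ ∀ K ⊆ N, IsCompact K → ∀ I,
    ∫⁻ z in K, ‖S i v ((A.e i).symm z) I‖ₑ ^ 2 ≤
      C * volume ((fun z => a i v ((A.e i).symm z)) '' K)

variable {D : MonD A G} {q : ℕ} {H : Type} [NormedAddCommGroup H] [InnerProductSpace ℂ H]

/-- characteristic directions at a point of the cover, read in the chart `i` -/
def Frm.Ker (Φ : Frm D q H) (i : A.ι) (y : D.cov G) (w : Fin n → ℂ) : Prop :=
  KerP (dV A i (Φ.a i (D.co i y)) (D.pr y)) (Φ.S i (D.co i y) (D.pr y)) w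

/-- vectors fixed by a finite index subgroup of `K` are orthogonal to all values of `S` -/
def Frm.NoFix (Φ : Frm D q H) (K : Subgroup G) : Prop :=
  ∀ K' : Subgroup G, Grp.FI K' K → ∀ ξ : H, (∀ g ∈ K', Φ.ρ g ξ = ξ) →
    ∀ i v, ∀ x ∈ (A.e i).source, ∀ I, ⟪ξ, Φ.S i v x I⟫_ℂ = 0

/-- on a nonempty open set the compact fibres of the tubes are characteristic -/
def Frm.Eta (Φ : Frm D q H) {p : ℕ} (𝒯 : Tube (D.atl G) G p) : Prop :=
  ∃ O : Set (D.cov G), IsOpen O ∧ O.Nonempty ∧ ∀ x ∈ 𝒯.M0, ∀ y ∈ 𝒯.T x, y ∈ O →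
    ∀ i, D.pr y ∈ (A.e i).source → ∀ w : Fin n → ℂ,
      (∀ k, dV (D.atl G) (i, D.co i y) (𝒯.π x) y k ⬝ᵥ w = 0) → Φ.Ker i y w

/-- the data on the big cover: `N` is the normal subgroup to be divided out -/
structure Up (Φ : Frm D q H) (N : Subgroup G) where
  al : D.cov G → Cn q
  al_eq : ∀ i v, ∀ x ∈ (A.e i).source, Φ.a i v x = al (D.pt i v x)
  lam : G → Cn q
  al_N : ∀ g ∈ N, ∀ e, al (g • e) = al e + lam g
  ρ_N : ∀ g ∈ N, Φ.ρ g = 1
  /-- SUB -/
  sub : ∀ P : Subgroup G, P ≤ N →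
    (∀ t ∈ Submodule.span ℝ (lam '' P), I • t ∈ Submodule.span ℝ (lam '' P)) → ∀ g ∈ P, lam g = 0
  T : Set (D.cov G)
  T_opn : IsOpen T
  T_ne : T.Nonempty
  T_sat : ∀ e ∈ T, ∀ Y : Set (D.cov G), IsPreconnected Y → e ∈ Y → (∀ y ∈ Y, al y = al e) → Y ⊆ T
  Ξ : Set H
  Ξ_sep : ∀ h : H, (∀ ξ ∈ Ξ, ⟪ξ, h⟫_ℂ = 0) → h = 0
  /-- real fibre primitives -/
  prim : ∀ ξ ∈ Ξ, ∃ u : D.cov G → ℝ, ContinuousOn u T ∧
    (∀ g ∈ N, lam g = 0 → ∀ e ∈ T, g • e ∈ T → u (g • e) = u e) ∧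
    ∀ e ∈ T, ∀ i, D.pr e ∈ (A.e i).source → ∃ (f : X → ℂ) (c : Cn q → ℝ) (κ : ℂ),
      Hm A f (D.pr e) ∧ ∀ᶠ x in 𝓝 (D.pr e),
        u (D.pt i (D.co i e) x) = (f x).re + c (Φ.a i (D.co i e) x) ∧
        (fun I => ⟪ξ, Φ.S i (D.co i e) x I⟫_ℂ) =
          κ • (eW (fun b => dl A i b f x) *ᵥ dW A i (Φ.a i (D.co i e)) x)

end

end Crest.Agent.X261.Gauss
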