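import Crest.Agent.R281.Kd5_22
import Crest.Agent.R281.Thn5_280

/-!
# Row 261, GAUSS (helper56), file `Flat`: removable singularities in `ℂ^n`

* `circ`      : discs whose boundary circles stay in a compact set avoiding a hypersurface;
* `unif_bdd`, `bdd_cop` : a function holomorphic off the common zeros of a coprime family is
                   bounded (Hartogs, with discs);
* `riemann_L2`   : `L²` Riemann extension across an analytic hypersurface in any dimension.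
-/

set_option autoImplicit false
set_option linter.unusedSectionVars false
set_option linter.dupNamespace false

open Set Filter Topology Complex Metric MeasureTheory Module
open scoped ENNReal

namespace Crest.Agent.X261.Gauss

open Crest.Agent.R281.Kd_22 (CopF star_dir)

noncomputable section

variable {E : Type} [NormedAddCommGroup E] [NormedSpace ℂ E] [FiniteDimensional ℂ E]

theorem exists_dir {D : E → ℂ} {p : E} (hD : AnalyticAt ℂ D p) (h0 : ¬ ∀ᶠ z in 𝓝 p, D z = 0) :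
    ∃ v : E, ¬ ∀ᶠ t : ℂ in 𝓝 0, D (p + t • v) = 0 := by
  obtain ⟨ρ, hρ, hA⟩ := Metric.eventually_nhds_iff_ball.1 hD.eventually_analyticAt
  have h1 : ∃ᶠ z in 𝓝 p, D z ≠ 0 := by rwa [Filter.not_eventually] at h0
  obtain ⟨z, hz, hzb⟩ := (h1.and_eventually (ball_mem_nhds p hρ)).exists
  refine ⟨z - p, fun hcon => hz ?_⟩
  set v := z - p
  have hconv : Convex ℝ ((fun s : ℂ => p + s • v) ⁻¹' ball p ρ) := by
    have h2 : (fun s : ℂ => p + s • v) ⁻¹' ball p ρ =
        (((LinearMap.toSpanSingleton ℂ E v).restrictScalars ℝ : ℂ →ₗ[ℝ] E)) ⁻¹' ball 0 ρ := by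
      ext s
      simp [mem_ball, dist_eq_norm]
    rw [h2]
    exact (convex_ball (0 : E) ρ).linear_preimage _
  have han : AnalyticOnNhd ℂ (fun s : ℂ => D (p + s • v))
      ((fun s : ℂ => p + s • v) ⁻¹' ball p ρ) := fun s hs =>
    AnalyticAt.comp (g := D) (f := fun s : ℂ => p + s • v) (hA _ hs)
      (analyticAt_const.add (analyticAt_id.smul analyticAt_const))
  have h00 : (0 : ℂ) ∈ (fun s : ℂ => p + s • v) ⁻¹' ball p ρ := by
    simpa using hρ
  have h1' : (1 : ℂ) ∈ (fun s : ℂ => p + s • v) ⁻¹' ball p ρ := by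
    simpa [v] using hzb
  have := han.eqOn_zero_of_preconnected_of_eventuallyEq_zero hconv.isPreconnected h00 hcon h1'
  simpa [v] using this

/-- discs with boundary in a fixed compact set off a hypersurface -/
theorem circ {D : E → ℂ} {p : E} (hD : AnalyticAt ℂ D p) {v₁ : E}
    (hv : ¬ ∀ᶠ t : ℂ in 𝓝 0, D (p + t • v₁) = 0) {O : Set E} (hO : O ∈ 𝓝 p) :
    ∃ ρ : ℝ, 0 < ρ ∧ ∃ N ∈ 𝓝 p, ∃ C : Set E, IsCompact C ∧ C ⊆ O ∧ (∀ z ∈ C, D z ≠ 0) ∧
      ∀ z ∈ N, (∀ t : ℂ, ‖t‖ ≤ ρ → z + t • v₁ ∈ O) ∧ ∀ t : ℂ, ‖t‖ = ρ → z + t • v₁ ∈ C := by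
  have : ProperSpace E := FiniteDimensional.proper ℂ E
  obtain ⟨O', hO'1, hO'o, hpO'⟩ := _root_.eventually_nhds_iff.1
    (hD.eventually_analyticAt.and (hO : ∀ᶠ z in 𝓝 p, z ∈ O))
  have hl : Continuous fun t : ℂ => p + t • v₁ := by fun_prop
  have hg : AnalyticAt ℂ (fun t : ℂ => D (p + t • v₁)) 0 :=
    AnalyticAt.comp (g := D) (f := fun s : ℂ => p + s • v₁) (by simpa using hD)
      (analyticAt_const.add (analyticAt_id.smul analyticAt_const))
  have h1 := hg.eventually_eq_zero_or_eventually_ne_zero.resolve_left hv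
  have h2 : ∀ᶠ t : ℂ in 𝓝 0, p + t • v₁ ∈ O' :=
    hl.continuousAt.preimage_mem_nhds (hO'o.mem_nhds (by simpa using hpO'))
  obtain ⟨ε, hε, hb⟩ := Metric.eventually_nhds_iff_ball.1
    ((eventually_nhdsWithin_iff.1 h1).and h2)
  have hρ : 0 < ε / 2 := half_pos hε
  have hU : IsOpen (O' ∩ D ⁻¹' {0}ᶜ) :=
    ContinuousOn.isOpen_inter_preimage (fun z hz => (hO'1 z hz).1.continuousAt.continuousWithinAt)
      hO'o isOpen_compl_singleton
  have hK0 : IsCompact ((fun t : ℂ => p + t • v₁) '' closedBall 0 (ε / 2)) :=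
    (isCompact_closedBall _ _).image hl
  have hK1 : IsCompact ((fun t : ℂ => p + t • v₁) '' sphere 0 (ε / 2)) :=
    (isCompact_sphere _ _).image hl
  obtain ⟨δ0, hδ0, h30⟩ := hK0.exists_cthickening_subset_open hO'o (by
    rintro _ ⟨t, ht, rfl⟩
    exact (hb t (closedBall_subset_ball (half_lt_self hε) ht)).2)
  obtain ⟨δ1, hδ1, h31⟩ := hK1.exists_cthickening_subset_open hU (by
    rintro _ ⟨t, ht, rfl⟩
    have ht' := hb t (closedBall_subset_ball (half_lt_self hε) (sphere_subset_closedBall ht))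
    refine ⟨ht'.2, ht'.1 ?_⟩
    rintro rfl
    simp at ht
    exact hρ.ne ht)
  refine ⟨ε / 2, hρ, ball p (min δ0 δ1), ball_mem_nhds _ (lt_min hδ0 hδ1), _, hK1.cthickening,
    fun z hz => (hO'1 z (h31 hz).1).2, fun z hz => (h31 hz).2, fun z hz => ⟨fun t ht => ?_,
      fun t ht => ?_⟩⟩
  · refine (hO'1 _ (h30 (mem_cthickening_of_dist_le _ (p + t • v₁) _ _
      ⟨t, mem_closedBall_zero_iff.2 ht, rfl⟩ ?_))).2
    rw [dist_add_right]
    exact (mem_ball.1 hz).le.trans (min_le_left _ _)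
  · refine mem_cthickening_of_dist_le _ (p + t • v₁) _ _ ⟨t, mem_sphere_zero_iff_norm.2 ht, rfl⟩ ?_
    rw [dist_add_right]
    exact (mem_ball.1 hz).le.trans (min_le_right _ _)

/-- maximum principle on a linear disc -/
theorem le_of_disc {W : Type*} [NormedAddCommGroup W] [NormedSpace ℂ W] {g : E → W} {z v : E}
    {ρ M : ℝ} (hρ : 0 < ρ) (hg : ∀ t : ℂ, ‖t‖ ≤ ρ → DifferentiableAt ℂ g (z + t • v))
    (hM : ∀ t : ℂ, ‖t‖ = ρ → ‖g (z + t • v)‖ ≤ M) : ‖g z‖ ≤ M := by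
  have hd : DifferentiableOn ℂ (fun t : ℂ => g (z + t • v)) (closure (ball 0 ρ)) := by
    rw [closure_ball _ hρ.ne']
    intro t ht
    exact ((hg t (mem_closedBall_zero_iff.1 ht)).comp t (by fun_prop)).differentiableWithinAt
  have := Complex.norm_le_of_forall_mem_frontier_norm_le isBounded_ball hd.diffContOnCl (C := M)
    (fun t ht => by
      rw [frontier_ball _ hρ.ne'] at ht
      exact hM t (mem_sphere_zero_iff_norm.1 ht)) (subset_closure (mem_ball_self hρ))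
  simpa using this

/-- a uniform local bound for a family of holomorphic functions bounded off a hypersurface -/
theorem unif_bdd {D : E → ℂ} {p : E} (hD : AnalyticAt ℂ D p) (h0 : ¬ ∀ᶠ z in 𝓝 p, D z = 0)
    {O : Set E} (hO : O ∈ 𝓝 p) {b : E → ℝ} (hb : ∀ z ∈ O, D z ≠ 0 → ContinuousAt b z) :
    ∃ N ∈ 𝓝 p, ∃ M : ℝ, ∀ (g : E → ℂ) (c : ℝ), 0 ≤ c → (∀ z ∈ O, DifferentiableAt ℂ g z) →
      (∀ z ∈ O, D z ≠ 0 → ‖g z‖ ≤ c * b z) → ∀ z ∈ N, ‖g z‖ ≤ c * M := by
  obtain ⟨v, hv⟩ := exists_dir hD h0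
  obtain ⟨ρ, hρ, N, hN, C, hC, hCO, hCD, h⟩ := circ hD hv hO
  obtain ⟨M, hM⟩ := hC.bddAbove_image (f := b) fun z hz =>
    (hb z (hCO hz) (hCD z hz)).continuousWithinAt
  refine ⟨N, hN, M, fun g c hc hg hgb z hz => le_of_disc hρ (fun t ht => hg _ ((h z hz).1 t ht))
    fun t ht => ?_⟩
  have h1 := (h z hz).2 t ht
  exact (hgb _ (hCO h1) (hCD _ h1)).trans (mul_le_mul_of_nonneg_left (hM ⟨_, h1, rfl⟩) hc)

/-- **Hartogs**: a function holomorphic off the common zeros of a coprime family is locally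
bounded -/
theorem bdd_cop {κ : Type} [Fintype κ] {f : κ → E → ℂ} {p : E} (hf : ∀ j, AnalyticAt ℂ (f j) p)
    (hcop : CopF f p) {O : Set E} (hO : O ∈ 𝓝 p) {g : E → ℂ}
    (hg : ∀ z ∈ O, (∃ j, f j z ≠ 0) → DifferentiableAt ℂ g z) :
    ∃ N ∈ 𝓝 p, ∃ M : ℝ, ∀ z ∈ N, (∃ j, f j z ≠ 0) → ‖g z‖ ≤ M := by
  have : ProperSpace E := FiniteDimensional.proper ℂ E
  borelize E
  obtain ⟨K⟩ : Nonempty (TopologicalSpace.PositiveCompacts E) := inferInstance
  let μ : Measure E := Measure.addHaarMeasure K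
  by_cases hp : ∃ j, f j p ≠ 0
  · have h1 := (hg p (mem_of_mem_nhds hO) hp).continuousAt.norm
    exact ⟨_, h1.eventually (gt_mem_nhds (lt_add_one ‖g p‖)), ‖g p‖ + 1, fun z hz _ => le_of_lt hz⟩
  push Not at hp
  obtain ⟨j₀, hj₀⟩ : ∃ j, ¬ ∀ᶠ z in 𝓝 p, f j z = 0 := by
    by_contra hcon
    push Not at hcon
    refine hcop (fun _ => 0) analyticAt_const (fun j => ⟨fun _ => 0, analyticAt_const, ?_⟩) rfl
    filter_upwards [hcon j] with z hz
    rw [hz, mul_zero]
  obtain ⟨v, hv⟩ := exists_dir (hf j₀) hj₀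
  have hv0 : v ≠ 0 := by
    rintro rfl
    exact hv (Eventually.of_forall fun t => by simpa using hp j₀)
  obtain ⟨r, hr, hae⟩ := star_dir μ hf hcop hv0 hv
  obtain ⟨ρ, hρ, N, hN, C, hC, hCO, hCD, h⟩ := circ (hf j₀) hv (inter_mem hO (ball_mem_nhds p hr))
  obtain ⟨M, hM⟩ := hC.bddAbove_image (f := fun z => ‖g z‖) fun z hz =>
    (hg z (hCO hz).1 ⟨j₀, hCD z hz⟩).continuousAt.norm.continuousWithinAt
  refine ⟨interior N ∩ O, inter_mem (interior_mem_nhds.2 hN) hO, M, fun z hz hz' => ?_⟩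
  have hc := (hg z hz.2 hz').continuousAt.norm
  refine le_of_tendsto_of_frequently hc ?_
  have hd := Measure.dense_of_ae hae
  have h1 : ∃ᶠ w in 𝓝 z, w ∈ ball p r → ∀ c : ℂ, w + c • v ∈ ball p r → ∃ j, f j (w + c • v) ≠ 0 :=
    mem_closure_iff_frequently.1 (hd z)
  refine (h1.and_eventually (isOpen_interior.mem_nhds hz.1)).mono fun w hw => ?_
  have hwN := h w (interior_subset hw.2)
  have hw0 : w ∈ ball p r := by simpa using (hwN.1 0 (by simpa using hρ.le)).2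
  exact le_of_disc hρ (fun t ht => hg _ (hwN.1 t ht).1 (hw.1 hw0 t (hwN.1 t ht).2))
    fun t ht => hM ⟨_, hwN.2 t ht, rfl⟩

/-- the `L²` Riemann extension theorem -/
theorem riemann_L2 [MeasurableSpace E] [BorelSpace E] (μ : Measure E) [μ.IsAddHaarMeasure]
    {f D : E → ℂ} {U : Set E} (hU : IsOpen U) (hD : AnalyticOnNhd ℂ D U)
    (hne : ∀ a ∈ U, ¬ ∀ᶠ z in 𝓝 a, D z = 0) (hf : DifferentiableOn ℂ f (U ∩ {z | D z ≠ 0}))
    (hL : ∫⁻ z in U ∩ {z | D z ≠ 0}, ‖f z‖ₑ ^ 2 ∂μ < ⊤) :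
    ∃ g : E → ℂ, DifferentiableOn ℂ g U ∧ ∀ z ∈ U, D z ≠ 0 → g z = f z := by
  set n := finrank ℂ E with hn
  let e : E ≃L[ℂ] (Fin n → ℂ) := ContinuousLinearEquiv.ofFinrankEq (by simp [hn])
  have hUo : IsOpen (e.symm ⁻¹' U) := hU.preimage e.symm.continuous
  let em : E ≃ᵐ (Fin n → ℂ) := e.toHomeomorph.toMeasurableEquiv
  have hH : (μ.map e).IsAddHaarMeasure := e.isAddHaarMeasure_map μ
  have hμ := Measure.isAddLeftInvariant_eq_smul (volume : Measure (Fin n → ℂ)) (μ.map e)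
  obtain ⟨g, hg1, hg2⟩ := Crest.Agent.R271.RExt747.riemann_ext (n := n) (f := f ∘ e.symm)
    (D := D ∘ e.symm) hUo (fun z hz => AnalyticAt.comp (g := D) (f := e.symm) (hD _ hz)
      ((e.symm : (Fin n → ℂ) →L[ℂ] E).analyticAt z)) (by
      intro a ha hcon
      refine hne _ ha ?_
      have h1 : Tendsto e (𝓝 (e.symm a)) (𝓝 a) := by
        have := e.continuous.tendsto (e.symm a)
        rwa [e.apply_symm_apply] at this
      filter_upwards [h1.eventually hcon] with z hz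
      simpa using hz)
      (DifferentiableOn.comp (t := U ∩ {z | D z ≠ 0}) hf e.symm.differentiable.differentiableOn
        fun z hz => hz) (by
      intro a ha
      refine ⟨_, hUo.mem_nhds ha, ?_⟩
      rw [hμ, Measure.restrict_smul, lintegral_smul_measure]
      refine ENNReal.mul_lt_top ENNReal.coe_lt_top ?_
      have h1 : μ.map e = μ.map em := rfl
      rw [h1, em.restrict_map, lintegral_map_equiv]
      have h2 : em ⁻¹' (e.symm ⁻¹' U ∩ {z | (D ∘ e.symm) z ≠ 0}) = U ∩ {z | D z ≠ 0} := by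
        ext z
        change e.symm (e z) ∈ U ∧ D (e.symm (e z)) ≠ 0 ↔ _
        rw [e.symm_apply_apply]; rfl
      rw [h2]
      refine lt_of_eq_of_lt (lintegral_congr fun z => ?_) hL
      change ‖f (e.symm (e z))‖ₑ ^ 2 = _
      rw [e.symm_apply_apply])
  refine ⟨g ∘ e, ?_, fun z hz hDz => ?_⟩
  · refine DifferentiableOn.comp (t := e.symm ⁻¹' U) hg1 e.differentiable.differentiableOn ?_
    intro z hz
    change e.symm (e z) ∈ U
    rwa [e.symm_apply_apply]
  · have := hg2 (e z) (by change e.symm (e z) ∈ U; rwa [e.symm_apply_apply])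
      (by simpa using hDz)
    simpa using this

end

end Crest.Agent.X261.Gauss
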