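import Crest.Agent.X261.Gauss.Eta

/-!
# Row 261, GAUSS (helper28), file `Dsc`: descent of the data to the quotient cover

`dn U : Frm (push D (mk' N)) q H`; `dn_noFix`, `dn_eta`, `desc`.
-/

set_option autoImplicit false
set_option linter.unusedSectionVars false
set_option linter.dupNamespace false

open Set Filter Topology Complex Matrix
open scoped InnerProductSpace

namespace Crest.Agent.X261.Gauss.Dsc

open Crest.Agent.R275.Geo Crest.Agent.R275.Core144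
open Crest.Agent.R275.OmT75 (dl dj)
open Crest.Agent.R273.UCov_914
open Crest.Agent.X261.Top (Tube dW)
open Crest.Agent.X261.Cov.A

noncomputable section

variable {n : ℕ} {X : Type} [TopologicalSpace X] {A : Atl n X} {Γ : Type} [Group Γ]
  {D : MonD A Γ} {N : Subgroup Γ} [N.Normal] {q : ℕ} {H : Type} [NormedAddCommGroup H]
  [InnerProductSpace ℂ H] {Φ : Frm D q H} (U : Up Φ N) {i : A.ι} {v v' : Γ} {x : X}

theorem dV_congr {f g : X → Cn q} {l : Cn q} (h : ∀ y ∈ (A.e i).source, f y = g y + l)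
    (hx : x ∈ (A.e i).source) : dV A i f x = dV A i g x := by
  funext k b
  have h1 : (fun z => f ((A.e i).symm z) k) =ᶠ[𝓝 (A.e i x)]
      fun z => g ((A.e i).symm z) k + l k :=
    mem_of_superset ((A.e i).open_target.mem_nhds ((A.e i).map_source hx)) fun z hz =>
      congrArg (fun t : Cn q => t k) (h _ ((A.e i).map_target hz))
  simp only [dV, dl, dj]
  rw [h1.fderiv_eq, fderiv_add_const]

theorem exists_eq (h : (v : Γ ⧸ N) = v') : ∃ g ∈ N, v = v' * g⁻¹ :=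
  ⟨v⁻¹ * v', QuotientGroup.eq.1 h, by group⟩

include U in
theorem a_eq (h : (v : Γ ⧸ N) = v') (i : A.ι) :
    ∃ l : Cn q, ∀ y ∈ (A.e i).source, Φ.a i v y = Φ.a i v' y + l := by
  obtain ⟨g, hg, rfl⟩ := exists_eq h
  exact ⟨U.lam g, fun y hy => by
    rw [U.al_eq i _ y hy, U.al_eq i _ y hy, ← D.deck_pt, U.al_N g hg]⟩

include U in
theorem S_eq (h : (v : Γ ⧸ N) = v') (hx : x ∈ (A.e i).source) : Φ.S i v x = Φ.S i v' x := by
  obtain ⟨g, hg, rfl⟩ := exists_eq h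
  funext I
  rw [Φ.S_eqv g i v' x hx, U.ρ_N g hg]
  rfl

include U in
theorem dV_eq (h : (v : Γ ⧸ N) = v') (hx : x ∈ (A.e i).source) :
    dV A i (Φ.a i v) x = dV A i (Φ.a i v') x :=
  (a_eq U h i).elim fun _ hl => dV_congr hl hx

/-- the data on the quotient cover -/
def dn : Frm (push D (QuotientGroup.mk' N)) q H where
  a i v := Φ.a i v.out
  a_hol i v := Φ.a_hol i v.out
  a_tr i j v x hx := by
    obtain ⟨l, hl⟩ := Φ.a_tr i j v.out x hx
    obtain ⟨l', hl'⟩ := a_eq U (v := D.c i j x * v.out)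
      (v' := ((push D (QuotientGroup.mk' N)).c i j x * v).out) (by simp) j
    exact ⟨l' + l, fun y hy => by rw [hl y hy, hl' y hy.2, add_assoc]⟩
  a_eqv g := by
    obtain ⟨L, h1, h2⟩ := Φ.a_eqv g.out
    refine ⟨L, h1, fun i v => ?_⟩
    obtain ⟨l, hl⟩ := h2 i v.out
    obtain ⟨l', hl'⟩ := a_eq U (v := (v * g⁻¹).out) (v' := v.out * g.out⁻¹) (by simp) i
    exact ⟨fun k => l k + l' k, fun x hx k => by
      rw [hl' x hx, PiLp.add_apply, hl x hx, add_assoc]⟩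
  tau_ne := by
    obtain ⟨i, v, x, hx, h⟩ := Φ.tau_ne
    exact ⟨i, v, x, hx, by rwa [dW_eq, dV_eq U (v' := v) (by simp) hx]⟩
  S i v := Φ.S i v.out
  S_hol i v := Φ.S_hol i v.out
  S_tr i j v x hx := by
    rw [Φ.S_tr i j v.out x hx, S_eq U (v := D.c i j x * v.out)
      (v' := ((push D (QuotientGroup.mk' N)).c i j x * v).out) (by simp) hx.2]
  ρ := QuotientGroup.lift N Φ.ρ U.ρ_N
  S_eqv g i v x hx I := by
    rw [S_eq U (v' := v.out * g.out⁻¹) (by simp) hx, Φ.S_eqv g.out i v.out x hx,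
      ← QuotientGroup.lift_mk' N U.ρ_N g.out, QuotientGroup.out_eq']
  deg i v := Φ.deg i v.out
  hor i v := Φ.hor i v.out
  closed i v := Φ.closed i v.out
  S_ne := by
    obtain ⟨i, v, x, hx, h⟩ := Φ.S_ne
    exact ⟨i, v, x, hx, by rwa [S_eq U (v' := v) (by simp) hx]⟩
  bd i v := Φ.bd i v.out

theorem dn_S (v : Γ) (hx : x ∈ (A.e i).source) : (dn U).S i v x = Φ.S i v x :=
  S_eq U (QuotientGroup.out_eq' _) hx

theorem dn_dV (v : Γ) (hx : x ∈ (A.e i).source) :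
    dV A i ((dn U).a i v) x = dV A i (Φ.a i v) x := dV_eq U (QuotientGroup.out_eq' _) hx

theorem dn_ρ (g : Γ) : (dn U).ρ g = Φ.ρ g := rfl

theorem dn_noFix {M : Subgroup Γ} (h : Φ.NoFix M) :
    (dn U).NoFix (M.map (QuotientGroup.mk' N)) := by
  intro K hK ξ hξ i v x hx I
  refine h (K.comap (QuotientGroup.mk' N) ⊓ M) ⟨inf_le_right, ?_⟩ ξ (fun g hg => hξ _ hg.1)
    i v.out x hx I
  rw [Subgroup.inf_relIndex_right, Subgroup.relIndex_comap]
  exact hK.2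

theorem dn_eta [T2Space X] {p : ℕ}
    (𝒯 : Tube ((push D (QuotientGroup.mk' N)).atl (Γ ⧸ N)) (Γ ⧸ N) p) : (dn U).Eta 𝒯 := by
  refine ⟨prj D _ '' U.T, isOpenMap_prj D _ _ U.T_opn, U.T_ne.image _, ?_⟩
  rintro x hx _ hy ⟨e, he, rfl⟩ i hi w hw
  rw [co_prj] at hw
  have h := Eta.etaStmt n X A Γ D N q H Φ U p 𝒯 x hx e he hy i hi w hw
  unfold Frm.Ker
  rw [co_prj, pr_prj, QuotientGroup.mk'_apply, dn_S U (x := D.pr e) _ hi,
    dn_dV U (x := D.pr e) _ hi]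
  exact h

/-- **DESC** -/
theorem desc [T2Space X] (U : Up Φ N) {M : Subgroup Γ} (h : Φ.NoFix M) :
    ∃ Φ' : Frm (push D (QuotientGroup.mk' N)) q H, Φ'.NoFix (M.map (QuotientGroup.mk' N)) ∧
      ∀ (p : ℕ) (𝒯 : Tube ((push D (QuotientGroup.mk' N)).atl (Γ ⧸ N)) (Γ ⧸ N) p), Φ'.Eta 𝒯 :=
  ⟨dn U, dn_noFix U h, fun _ 𝒯 => dn_eta U 𝒯⟩

end

end Crest.Agent.X261.Gauss.Dsc
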