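import Crest.Agent.X261.Gauss.EtaA
import Crest.Agent.X261.Gauss.Stm
import Crest.Agent.X261.Plk.C
import Crest.Agent.R275.OmTot_75
import Mathlib.Analysis.RCLike.Extend

/-!
# Row 261, GAUSS (helper28), file `Eta`: the compact fibres are characteristic

`etaStmt : EtaStmt`.  On a component `Y` of the preimage of a compact fibre the maximum principle
shows first that `al` is constant (by `SUB`), then that the fibre primitives are constant.
-/

set_option autoImplicit false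
set_option linter.unusedSectionVars false
set_option linter.dupNamespace false

open Set Filter Topology Complex Matrix
open scoped InnerProductSpace

namespace Crest.Agent.X261.Gauss.Eta

open Crest.Agent.R275.Geo Crest.Agent.R275.Core144
open Crest.Agent.R275.OmT75 (dl dj dj_holo)
open Crest.Agent.R273.UCov_914
open Crest.Agent.R273.Fock_243 (FI eW iW)
open Crest.Agent.R266.SCV (analyticOnNhd_of_differentiableOn)
open Crest.Agent.X261.Top (Tube)
open Crest.Agent.X261.Cov.A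

noncomputable section

variable {n : ℕ}

theorem dot_eq {f : Cn n → ℂ} {z : Cn n} (hf : DifferentiableAt ℂ f z) (w : Fin n → ℂ) :
    (fun b => dj b f z) ⬝ᵥ w = fderiv ℂ f z (WithLp.toLp 2 w) := by
  have h : (WithLp.toLp 2 w : Cn n) = ∑ b, w b • EuclideanSpace.single b (1 : ℂ) := by
    ext c
    simp [Pi.single_apply]
  rw [h, map_sum, dotProduct]
  exact Finset.sum_congr rfl fun b _ => by rw [dj_holo hf, map_smul, smul_eq_mul, mul_comm]

theorem fderiv_coord {q : ℕ} {g : Cn n → Cn q} {z : Cn n} (hg : DifferentiableAt ℂ g z)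
    (k : Fin q) (w : Cn n) : fderiv ℂ (fun y => g y k) z w = fderiv ℂ g z w k :=
  congrArg (fun L : Cn n →L[ℂ] ℂ => L w)
    ((EuclideanSpace.proj k : Cn q →L[ℂ] ℂ).hasFDerivAt.comp z hg.hasFDerivAt).fderiv

/-- a real subspace whose real annihilator is complex is a complex subspace -/
theorem smul_mem_span {q : ℕ} {S : Set (Cn q)}
    (h : ∀ L : Cn q →L[ℂ] ℂ, (∀ s ∈ S, (L s).re = 0) → ∀ s ∈ S, L s = 0) :
    ∀ t ∈ Submodule.span ℝ S, I • t ∈ Submodule.span ℝ S := by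
  intro t ht
  by_contra hc
  obtain ⟨μ, h1, h2⟩ := Submodule.exists_le_ker_of_notMem hc
  let L : Cn q →ₗ[ℂ] ℂ := Module.Dual.extendRCLike (𝕜 := ℂ) μ
  have h3 : ∀ s, (L s).re = μ s := Module.Dual.re_extendRCLike_apply (𝕜 := ℂ) μ
  have h4 := h (LinearMap.toContinuousLinearMap L) fun s hs =>
    (h3 s).trans (h2 (Submodule.subset_span hs))
  have h5 : Submodule.span ℝ S ≤ LinearMap.ker (L.restrictScalars ℝ) := Submodule.span_le.2 h4
  have h6 : L t = 0 := h5 ht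
  exact h1 (by rw [← h3, map_smul, h6, smul_zero, zero_re])

section Loc

variable {E F M : Type} [NormedAddCommGroup E] [NormedSpace ℂ E] [NormedAddCommGroup F]
  [NormedSpace ℂ F] [TopologicalSpace M] [FiniteDimensional ℂ E] [FiniteDimensional ℂ F]
  {c : OpenPartialHomeomorph M E} {G : M → F} {y : M}

theorem Sub.max' (h : Sub c G y) {S : Set M} (hS : 𝓝[S] y = 𝓝[G ⁻¹' {G y}] y) (hy : y ∈ S)
    {f : M → ℂ} (hf : AnalyticAt ℂ (fun z => f (c.symm z)) (c y)) {u : M → ℝ} {κ : ℝ}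
    (hu : ∀ᶠ x in 𝓝[S] y, u x = (f x).re + κ) (hm : ∀ᶠ x in 𝓝[S] y, u x ≤ u y) :
    (∀ᶠ x in 𝓝[S] y, u x = u y) ∧ (∀ᶠ x in 𝓝[S] y, f x = f y) ∧
      ∀ w, fderiv ℂ (fun z => G (c.symm z)) (c y) w = 0 →
        fderiv ℂ (fun z => f (c.symm z)) (c y) w = 0 := by
  have h0 := hu.self_of_nhdsWithin hy
  obtain ⟨h1, h2⟩ := h.max hf (hS ▸ (hu.and hm).mono fun x hx => by
    have h3 := hx.2
    rw [hx.1, h0] at h3
    exact le_of_add_le_add_right h3)
  rw [← hS] at h1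
  exact ⟨(hu.and h1).mono fun x hx => by rw [hx.1, hx.2, h0], h1, h2⟩

end Loc

variable {X : Type} [TopologicalSpace X] [T2Space X] {A : Atl n X} {Γ : Type} [Group Γ]
  {D : MonD A Γ} {N : Subgroup Γ} [N.Normal] {p : ℕ}
  (𝒯 : Tube ((push D (QuotientGroup.mk' N)).atl (Γ ⧸ N)) (Γ ⧸ N) p)
  {x : (push D (QuotientGroup.mk' N)).cov (Γ ⧸ N)} {e y : D.cov Γ} {i : A.ι}

/-- the fibre through the image of `e` -/
def fb (x : (push D (QuotientGroup.mk' N)).cov (Γ ⧸ N)) (e : D.cov Γ) :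
    Set ((push D (QuotientGroup.mk' N)).cov (Γ ⧸ N)) :=
  𝒯.T x ∩ 𝒯.π x ⁻¹' {𝒯.π x (prj D (QuotientGroup.mk' N) e)}

theorem sub (hx : x ∈ 𝒯.M0) (hy : prj D (QuotientGroup.mk' N) y ∈ 𝒯.T x)
    (hi : D.pr y ∈ (A.e i).source) :
    Sub (D.chart i (D.co i y)) (fun y => 𝒯.π x (prj D (QuotientGroup.mk' N) y)) y := by
  have h1 := read_cmap (cpt_push D (QuotientGroup.mk' N)) (𝒯.π x) (i, D.co i y)
  have h2 : prj D (QuotientGroup.mk' N) y ∈ (((push D (QuotientGroup.mk' N)).atl (Γ ⧸ N)).e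
      (i, QuotientGroup.mk' N (D.co i y))).source := ⟨hi, co_prj D _ i y⟩
  refine ⟨D.mem_sheet_co hi, ?_, ?_⟩
  · refine Eq.mpr (congrArg (AnalyticAt ℂ · _) h1) ?_
    refine analyticOnNhd_of_differentiableOn (isOpen_ti (𝒯.T_opn x hx)) (𝒯.π_hol x hx _) _
      ⟨(A.e i).map_source hi, ?_⟩
    exact mem_preimage.2 (mem_of_eq_of_mem (OpenPartialHomeomorph.left_inv _ h2) hy)
  · refine Eq.mpr (congrArg (fun g => Function.Surjective (fderiv ℂ g _)) h1) ?_
    by_contra hc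
    exact (𝒯.π_subm x hx).le ⟨hy, _, h2, hc⟩

theorem nhds_fb (hx : x ∈ 𝒯.M0) (hy : y ∈ prj D (QuotientGroup.mk' N) ⁻¹' fb 𝒯 x e) :
    𝓝[prj D (QuotientGroup.mk' N) ⁻¹' fb 𝒯 x e] y =
      𝓝[(fun y => 𝒯.π x (prj D (QuotientGroup.mk' N) y)) ⁻¹'
        {𝒯.π x (prj D (QuotientGroup.mk' N) y)}] y := by
  rw [fb, preimage_inter, nhdsWithin_inter_of_mem (mem_nhdsWithin_of_mem_nhds
    (((𝒯.T_opn x hx).preimage (continuous_prj D _)).mem_nhds hy.1)), hy.2]
  rfl

theorem orb (hx : x ∈ 𝒯.M0) (he : prj D (QuotientGroup.mk' N) e ∈ 𝒯.T x) :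
    Orb N (prj D (QuotientGroup.mk' N)) (fb 𝒯 x e) where
  cont := continuous_prj D _
  opn := isOpenMap_prj D _
  sj := surjective_prj D _ (QuotientGroup.mk'_surjective N)
  fib a b := by rw [prj_eq_iff, QuotientGroup.ker_mk']
  cpt := by
    have h1 := 𝒯.π_prop x hx _ (mem_ball_zero_iff.1 (𝒯.π_img x hx ▸ mem_image_of_mem _ he))
    have h2 := ((𝒯.π_cont x hx).mono fun _ h => h.1).preimage_isClosed_of_isClosed h1.isClosed
      (isClosed_singleton (x := 𝒯.π x (prj D (QuotientGroup.mk' N) e)))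
    convert h1.of_isClosed_subset h2 inter_subset_left using 1
    exact subset_antisymm (fun z hz => ⟨⟨hz.1, (congrArg norm hz.2).le⟩, hz.2⟩)
      fun z hz => ⟨hz.1.1, hz.2⟩
  lc y hy := by
    obtain ⟨i, hi⟩ := A.cover (D.pr y)
    rw [nhds_fb 𝒯 hx hy]
    exact (sub 𝒯 hx hy.1 hi).conn (nhds_fb 𝒯 hx hy ▸ self_mem_nhdsWithin)

variable {q : ℕ} {H : Type} [NormedAddCommGroup H] [InnerProductSpace ℂ H] {Φ : Frm D q H}
  (U : Up Φ N)

theorem al_ev (hi : D.pr y ∈ (A.e i).source) :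
    (fun z => U.al ((D.chart i (D.co i y)).symm z)) =ᶠ[𝓝 (A.e i (D.pr y))]
      fun z => Φ.a i (D.co i y) ((A.e i).symm z) :=
  mem_of_superset ((A.e i).open_target.mem_nhds ((A.e i).map_source hi)) fun _ hz =>
    (U.al_eq i _ _ ((A.e i).map_target hz)).symm

theorem al_an (hi : D.pr y ∈ (A.e i).source) :
    AnalyticAt ℂ (fun z => U.al ((D.chart i (D.co i y)).symm z)) (A.e i (D.pr y)) :=
  (analyticOnNhd_of_differentiableOn (isOpen_ti isOpen_univ)
    (differentiableOn_euclidean.2 (Φ.a_hol i (D.co i y))) _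
      ⟨(A.e i).map_source hi, mem_univ _⟩).congr (al_ev U hi).symm

theorem al_cont : Continuous U.al := continuous_iff_continuousAt.2 fun y => by
  obtain ⟨i, hi⟩ := A.cover (D.pr y)
  exact ((D.chart i (D.co i y)).symm.continuousAt_iff_continuousAt_comp_right
    (D.mem_sheet_co hi)).2 (al_an U hi).continuousAt

/-- step (2): `al` is constant on the component -/
theorem al_const (hx : x ∈ 𝒯.M0) (he : prj D (QuotientGroup.mk' N) e ∈ 𝒯.T x) :
    (∀ g ∈ (orb 𝒯 hx he).stab ⟨he, rfl⟩, U.lam g = 0) ∧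
      ∀ y ∈ connectedComponentIn (prj D (QuotientGroup.mk' N) ⁻¹' fb 𝒯 x e) e,
        U.al y = U.al e := by
  have h := orb 𝒯 hx he
  have he' : e ∈ prj D (QuotientGroup.mk' N) ⁻¹' fb 𝒯 x e := ⟨he, rfl⟩
  have key : ∀ L : Cn q →L[ℂ] ℂ, (∀ g ∈ h.stab he', (L (U.lam g)).re = 0) →
      ∀ y ∈ connectedComponentIn (prj D (QuotientGroup.mk' N) ⁻¹' fb 𝒯 x e) e,
        L (U.al y) = L (U.al e) := by
    intro L hL
    have h1 : ∀ y ∈ connectedComponentIn (prj D (QuotientGroup.mk' N) ⁻¹' fb 𝒯 x e) e,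
        (∀ᶠ z in 𝓝[prj D (QuotientGroup.mk' N) ⁻¹' fb 𝒯 x e] y,
          (L (U.al z)).re ≤ (L (U.al y)).re) →
        ∀ᶠ z in 𝓝[prj D (QuotientGroup.mk' N) ⁻¹' fb 𝒯 x e] y, L (U.al z) = L (U.al y) := by
      intro y hy hm
      obtain ⟨i, hi⟩ := A.cover (D.pr y)
      have hy' := connectedComponentIn_subset _ _ hy
      rw [nhds_fb 𝒯 hx hy'] at hm ⊢
      exact ((sub 𝒯 hx hy'.1 hi).max (f := fun z => L (U.al z))
        ((L.analyticAt _).comp (al_an U hi)) hm).1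
    have h2 := fun y hy => h.const he' (y := y) (u := fun z => (L (U.al z)).re)
      (continuous_re.comp (L.continuous.comp (al_cont U))).continuousOn
      (fun g hg y _ => by rw [U.al_N g hg.1, map_add, add_re, hL g hg, add_zero])
      (fun y hy hm => (h1 y hy hm).mono fun z hz => congrArg re hz) hy
    refine fun y hy => h.const_of_loc he' (f := fun z => L (U.al z)) (fun y hy => h1 y hy ?_) hy
    rw [← h.nhds_eq hy]
    exact eventually_nhdsWithin_of_forall fun z hz => ((h2 z hz).trans (h2 y hy).symm).le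
  have h3 : ∀ g ∈ h.stab he', U.lam g = 0 := by
    refine U.sub _ (fun g hg => hg.1) (smul_mem_span fun L hL => ?_)
    rintro _ ⟨g, hg, rfl⟩
    have h4 := key L (fun g hg => hL _ ⟨g, hg, rfl⟩) _ hg.2
    rwa [U.al_N g hg.1, map_add, add_eq_left] at h4
  refine ⟨h3, fun y hy => ?_⟩
  ext k
  exact key (EuclideanSpace.proj k) (fun g hg => by rw [h3 g hg, map_zero, zero_re]) y hy

/-- **ETA** -/
theorem etaStmt : EtaStmt := by
  intro n X _ _ A Γ _ D N _ q H _ _ Φ U p 𝒯 x hx e heT he i hi w hw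
  have h := orb 𝒯 hx he
  have he' : e ∈ prj D (QuotientGroup.mk' N) ⁻¹' fb 𝒯 x e := ⟨he, rfl⟩
  have heY := mem_connectedComponentIn he'
  obtain ⟨h1, h2⟩ := al_const 𝒯 U hx he
  have hs := sub 𝒯 hx he hi
  have hw' : fderiv ℂ (fun z => 𝒯.π x (prj D (QuotientGroup.mk' N)
      ((D.chart i (D.co i e)).symm z))) (D.chart i (D.co i e) e) (WithLp.toLp 2 w) = 0 := by
    ext k
    rw [← fderiv_coord hs.an.differentiableAt]
    refine (dot_eq ((EuclideanSpace.proj k : Cn p →L[ℂ] ℂ).differentiableAt.comp _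
      hs.an.differentiableAt) w).symm.trans (Eq.trans ?_ (hw k))
    refine congrArg (· ⬝ᵥ w) (funext fun b => congrArg (dj b · _) (funext fun z => ?_))
    exact congrArg (fun t => 𝒯.π x t k) (prj_pt D _ _ _ _)
  have h3 : ∀ k, dV A i (Φ.a i (D.co i e)) (D.pr e) k ⬝ᵥ w = 0 := fun k => by
    have h4 : AnalyticAt ℂ (fun z => U.al ((D.chart i (D.co i e)).symm z) k) (A.e i (D.pr e)) :=
      ((EuclideanSpace.proj k : Cn q →L[ℂ] ℂ).analyticAt _).comp (al_an U hi)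
    have h5 := (hs.max (f := fun z => U.al z k) h4 (by
      rw [← nhds_fb 𝒯 hx he', ← h.nhds_eq heY]
      exact eventually_nhdsWithin_of_forall fun z hz => by rw [h2 z hz])).2 _ hw'
    have h6 : (fun z => U.al ((D.chart i (D.co i e)).symm z) k) =ᶠ[𝓝 (A.e i (D.pr e))]
        fun z => Φ.a i (D.co i e) ((A.e i).symm z) k := (al_ev U hi).mono fun z hz =>
      congrArg (fun t : Cn q => t k) hz
    exact (dot_eq (h4.congr h6).differentiableAt w).trans (h6.fderiv_eq (𝕜 := ℂ) ▸ h5)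
  have hT := U.T_sat e heT _ isPreconnected_connectedComponentIn heY h2
  refine ⟨h3, funext fun J => U.Ξ_sep _ fun ξ hξ => ?_⟩
  obtain ⟨u, h4, h5, h6⟩ := U.prim ξ hξ
  have key : ∀ y ∈ connectedComponentIn (prj D (QuotientGroup.mk' N) ⁻¹' fb 𝒯 x e) e,
      ∀ i, D.pr y ∈ (A.e i).source → ∀ (f : X → ℂ) (c : Cn q → ℝ),
      (∀ᶠ t in 𝓝 (D.pr y), u (D.pt i (D.co i y) t) = (f t).re + c (Φ.a i (D.co i y) t)) →
      ∀ᶠ z in 𝓝[prj D (QuotientGroup.mk' N) ⁻¹' fb 𝒯 x e] y,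
        u z = (f (D.pr z)).re + c (U.al e) := by
    intro y hy i hi f c hf
    rw [← h.nhds_eq hy]
    filter_upwards [self_mem_nhdsWithin, mem_nhdsWithin_of_mem_nhds
      ((D.continuous_pr.tendsto y).eventually hf), mem_nhdsWithin_of_mem_nhds (D.co_eventually hi)]
      with z hz h7 h8
    rw [← h8.2, U.al_eq i _ _ h8.1, D.pt_co h8.1, h2 z hz] at h7
    exact h7
  have h7 := fun y hy => h.const he' (y := y) (h4.mono hT)
    (fun g hg y hy => h5 g hg.1 (h1 g hg) y (hT hy) (hT (h.smul_mem hg.1 heY hg.2 hy)))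
    (fun y hy hm => by
      obtain ⟨i, hi⟩ := A.cover (D.pr y)
      obtain ⟨f, c, κ, h8, h9⟩ := h6 y (hT hy) i hi
      have hy' := connectedComponentIn_subset _ _ hy
      exact ((sub 𝒯 hx hy'.1 hi).max' (nhds_fb 𝒯 hx hy') hy' (f := fun z => f (D.pr z)) (h8 i hi)
        (key y hy i hi f c (h9.mono fun _ h => h.1)) hm).1) hy
  obtain ⟨f, c, κ, h8, h9⟩ := h6 e heT i hi
  have h10 := (hs.max' (nhds_fb 𝒯 hx he') he' (f := fun z => f (D.pr z)) (h8 i hi)
    (key e heY i hi f c (h9.mono fun _ h => h.1)) (by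
      rw [← h.nhds_eq heY]
      exact eventually_nhdsWithin_of_forall fun z hz => (h7 z hz).le)).2.2 _ hw'
  have h11 : ∑ b, dl A i b f (D.pr e) * w b = 0 :=
    (dot_eq (h8 i hi).differentiableAt w).trans h10
  have h12 : ⟪ξ, mv (iW w) (Φ.S i (D.co i e) (D.pr e)) J⟫_ℂ =
      (iW w *ᵥ fun I => ⟪ξ, Φ.S i (D.co i e) (D.pr e) I⟫_ℂ) J := by
    simp only [mv, inner_sum, inner_smul_right, Matrix.mulVec, dotProduct]
  rw [h12, h9.self_of_nhds.2, Matrix.mulVec_smul, Plk.iW_eW_mulVec, h11, dW_eq,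
    Plk.iW_wdg_of_ker h3]
  simp

end

end Crest.Agent.X261.Gauss.Eta
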