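import Mathlib.Analysis.Calculus.ImplicitContDiff
import Mathlib.Analysis.Complex.OpenMapping
import Mathlib.Analysis.Calculus.ContDiff.FTaylorSeries
import Mathlib.Topology.Algebra.ConstMulAction
import Mathlib.Analysis.Normed.Module.Connected

/-!
# Row 261, GAUSS (helper28), file `EtaA`: the maximum principle on the fibres of a submersion

* `exists_par`          : analytic parametrisation of a fibre;
* `Sub.max`, `Sub.conn` : local maximum principle and local connectedness in a chart;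
* `Orb`                 : a component of the preimage of a compact set in a Galois cover;
* `Orb.exists_max`, `Orb.const` : invariant functions attain their maximum, and are constant.
-/

set_option autoImplicit false
set_option linter.unusedSectionVars false
set_option linter.dupNamespace false

open Set Filter Topology
open scoped ContDiff

namespace Crest.Agent.X261.Gauss.Eta

noncomputable section

section Flat

variable {E F : Type} [NormedAddCommGroup E] [NormedSpace ℂ E] [NormedAddCommGroup F]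
  [NormedSpace ℂ F]

theorem loc_const {f : E → ℂ} {z : E} (hf : AnalyticAt ℂ f z)
    (h : ∀ᶠ y in 𝓝 z, (f y).re ≤ (f z).re) : ∀ᶠ y in 𝓝 z, f y = f z := by
  refine hf.eventually_constant_or_nhds_le_map_nhds.resolve_right fun h1 => ?_
  have h2 : ∀ᶠ w : ℂ in 𝓝 (f z), w.re ≤ (f z).re := h1 h
  have h3 : Tendsto (fun t : ℝ => f z + t) (𝓝[>] 0) (𝓝 (f z)) := by
    refine tendsto_nhdsWithin_of_tendsto_nhds (Continuous.tendsto' (by fun_prop) _ _ (by simp))
  obtain ⟨t, h4, h5⟩ := ((h3.eventually h2).and self_mem_nhdsWithin).exists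
  simp only [Complex.add_re, Complex.ofReal_re, add_le_iff_nonpos_right] at h4
  exact absurd h5 (not_lt.2 h4)

variable [FiniteDimensional ℂ E] [FiniteDimensional ℂ F] {g : E → F} {z : E}

/-- analytic parametrisation of a fibre of a submersion -/
theorem exists_par (hg : AnalyticAt ℂ g z) (hs : Function.Surjective (fderiv ℂ g z)) :
    ∃ σ : (fderiv ℂ g z).ker → E, AnalyticAt ℂ σ 0 ∧ σ 0 = z ∧
      HasFDerivAt σ (fderiv ℂ g z).ker.subtypeL 0 ∧ map σ (𝓝 0) = 𝓝[g ⁻¹' {g z}] z := by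
  have : CompleteSpace E := FiniteDimensional.complete ℂ E
  have : CompleteSpace F := FiniteDimensional.complete ℂ F
  have : CompleteSpace (fderiv ℂ g z).ker := FiniteDimensional.complete ℂ _
  have h1 := hg.hasStrictFDerivAt
  have h2 : (fderiv ℂ g z).range = ⊤ := LinearMap.range_eq_top.2 hs
  have h3 : (fderiv ℂ g z).ker.ClosedComplemented :=
    (fderiv ℂ g z).ker_closedComplemented_of_finiteDimensional_range
  let φ := h1.implicitFunctionDataOfComplemented g _ h2 h3
  have h0 : φ.rightFun φ.pt = 0 := by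
    change Classical.choose h3 (z - z) = 0
    rw [sub_self, map_zero]
  refine ⟨φ.implicitFunction (g z), ?_, h1.implicitFunctionOfComplemented_apply_image h2 h3,
    (h1.to_implicitFunctionOfComplemented h2 h3).hasFDerivAt, ?_⟩
  · have h4 : ContDiffAt ℂ ω φ.implicitFunction.uncurry (φ.prodFun φ.pt) :=
      φ.contDiffAt_implicitFunction hg.contDiffAt
        ((Classical.choose h3).contDiff.contDiffAt.comp z (contDiffAt_id.sub contDiffAt_const))
        (by simp)
    rw [φ.prodFun_apply, h0] at h4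
    exact (h4.analyticAt).comp₂ (f := fun _ => g z) (g := id) analyticAt_const analyticAt_id
  · have h4 := φ.map_implicitFunction_nhdsWithin_preimage univ
    rwa [h0, preimage_univ, nhdsWithin_univ, univ_inter] at h4

end Flat

section Chart

variable {E F M : Type} [NormedAddCommGroup E] [NormedSpace ℂ E] [NormedAddCommGroup F]
  [NormedSpace ℂ F] [TopologicalSpace M]

/-- `G` is a holomorphic submersion at `y`, read in the chart `c` -/
structure Sub (c : OpenPartialHomeomorph M E) (G : M → F) (y : M) : Prop where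
  mem : y ∈ c.source
  an : AnalyticAt ℂ (fun z => G (c.symm z)) (c y)
  sj : Function.Surjective (fderiv ℂ (fun z => G (c.symm z)) (c y))

variable [FiniteDimensional ℂ E] [FiniteDimensional ℂ F] {c : OpenPartialHomeomorph M E}
  {G : M → F} {y : M}

theorem Sub.par (h : Sub c G y) :
    ∃ σ : (fderiv ℂ (fun z => G (c.symm z)) (c y)).ker → E, AnalyticAt ℂ σ 0 ∧ σ 0 = c y ∧
      HasFDerivAt σ (fderiv ℂ (fun z => G (c.symm z)) (c y)).ker.subtypeL 0 ∧
      map (fun s => c.symm (σ s)) (𝓝 0) = 𝓝[G ⁻¹' {G y}] y := by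
  obtain ⟨σ, h1, h2, h3, h4⟩ := exists_par h.an h.sj
  refine ⟨σ, h1, h2, h3, ?_⟩
  have h5 := c.symm.map_nhdsWithin_preimage_eq (c.map_source h.mem) (G ⁻¹' {G y})
  rw [c.left_inv h.mem] at h4 h5
  rw [← h5, ← show _ = 𝓝[c.symm ⁻¹' (G ⁻¹' {G y})] c y from h4, map_map]
  rfl

/-- the local maximum principle on a fibre -/
theorem Sub.max (h : Sub c G y) {f : M → ℂ} (hf : AnalyticAt ℂ (fun z => f (c.symm z)) (c y))
    (hm : ∀ᶠ x in 𝓝[G ⁻¹' {G y}] y, (f x).re ≤ (f y).re) :
    (∀ᶠ x in 𝓝[G ⁻¹' {G y}] y, f x = f y) ∧ ∀ w, fderiv ℂ (fun z => G (c.symm z)) (c y) w = 0 →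
      fderiv ℂ (fun z => f (c.symm z)) (c y) w = 0 := by
  obtain ⟨σ, h1, h2, h3, h4⟩ := h.par
  rw [← h4, eventually_map] at hm ⊢
  have h5 : c.symm (σ 0) = y := by rw [h2, c.left_inv h.mem]
  have h6 : ∀ᶠ s in 𝓝 0, f (c.symm (σ s)) = f y := by
    have h7 := loc_const (f := fun s => f (c.symm (σ s))) (z := 0)
      (AnalyticAt.comp (g := fun z => f (c.symm z)) (f := σ) (by rw [h2]; exact hf) h1)
      (by simpa only [h5] using hm)
    simpa only [h5] using h7
  refine ⟨h6, fun w hw => ?_⟩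
  have h7 := HasFDerivAt.comp (f := σ) 0 (h2 ▸ hf.differentiableAt.hasFDerivAt) h3
  have h8 := h7.unique ((hasFDerivAt_const (f y) 0).congr_of_eventuallyEq h6)
  rw [h2] at h8
  exact congrArg (fun L => L ⟨w, hw⟩) h8

/-- fibres are locally connected -/
theorem Sub.conn (h : Sub c G y) {W : Set M} (hW : W ∈ 𝓝[G ⁻¹' {G y}] y) :
    connectedComponentIn W y ∈ 𝓝[G ⁻¹' {G y}] y := by
  obtain ⟨σ, h1, h2, -, h4⟩ := h.par
  rw [← h4, mem_map] at hW ⊢
  have h5 : ∀ᶠ s in 𝓝 0, σ s ∈ c.target := h1.continuousAt.eventually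
    (c.open_target.mem_nhds (by rw [h2]; exact c.map_source h.mem))
  obtain ⟨r, hr, h6⟩ := Metric.mem_nhds_iff.1 ((h5.and h1.eventually_analyticAt).and hW)
  have h7 : IsPreconnected ((fun s => c.symm (σ s)) '' Metric.ball 0 r) :=
    (convex_ball 0 r).isPreconnected.image _ fun s hs => (ContinuousAt.comp (f := σ)
      (c.continuousAt_symm (h6 hs).1.1) (h6 hs).1.2.continuousAt).continuousWithinAt
  refine mem_of_superset (Metric.ball_mem_nhds 0 hr) fun s hs => ?_
  refine h7.subset_connectedComponentIn ⟨0, Metric.mem_ball_self hr, ?_⟩ ?_ ⟨s, hs, rfl⟩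
  · change c.symm (σ 0) = y
    rw [h2, c.left_inv h.mem]
  · rintro _ ⟨t, ht, rfl⟩
    exact (h6 ht).2

end Chart

section Orb

variable {G M M' : Type} [Group G] [TopologicalSpace M] [TopologicalSpace M'] [MulAction G M]
  [ContinuousConstSMul G M]

/-- the preimage of a compact set `W` in a Galois cover with group `N` -/
structure Orb (N : Subgroup G) (p : M → M') (W : Set M') : Prop where
  cont : Continuous p
  opn : IsOpenMap p
  sj : Function.Surjective p
  fib : ∀ x y : M, p x = p y ↔ ∃ g ∈ N, g • x = y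
  cpt : IsCompact W
  lc : ∀ y ∈ p ⁻¹' W, connectedComponentIn (p ⁻¹' W) y ∈ 𝓝[p ⁻¹' W] y

variable {N : Subgroup G} {p : M → M'} {W : Set M'} {e x y : M} {g : G}

theorem Orb.smul (h : Orb N p W) (hg : g ∈ N) (hx : x ∈ connectedComponentIn (p ⁻¹' W) y) :
    g • x ∈ connectedComponentIn (p ⁻¹' W) (g • y) := by
  have hy := connectedComponentIn_nonempty_iff.1 ⟨x, hx⟩
  refine (isPreconnected_connectedComponentIn.image (g • ·)
    (continuous_const_smul g).continuousOn).subset_connectedComponentIn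
    ⟨y, mem_connectedComponentIn hy, rfl⟩ ?_ ⟨x, hx, rfl⟩
  rintro _ ⟨z, hz, rfl⟩
  rw [mem_preimage, ← (h.fib z _).2 ⟨g, hg, rfl⟩]
  exact connectedComponentIn_subset (p ⁻¹' W) _ hz

theorem Orb.smul_mem (h : Orb N p W) (hg : g ∈ N) (hx : x ∈ connectedComponentIn (p ⁻¹' W) e)
    (hx' : g • x ∈ connectedComponentIn (p ⁻¹' W) e)
    (hy : y ∈ connectedComponentIn (p ⁻¹' W) e) : g • y ∈ connectedComponentIn (p ⁻¹' W) e := by
  rw [connectedComponentIn_eq hx']
  exact h.smul hg (connectedComponentIn_eq hx ▸ hy)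

/-- the stabiliser of the component of `e` -/
def Orb.stab (h : Orb N p W) (he : e ∈ p ⁻¹' W) : Subgroup G where
  carrier := {g | g ∈ N ∧ g • e ∈ connectedComponentIn (p ⁻¹' W) e}
  one_mem' := ⟨one_mem _, by rw [one_smul]; exact mem_connectedComponentIn he⟩
  mul_mem' ha hb := ⟨mul_mem ha.1 hb.1, by
    rw [mul_smul]; exact h.smul_mem ha.1 (mem_connectedComponentIn he) ha.2 hb.2⟩
  inv_mem' ha := ⟨inv_mem ha.1, h.smul_mem (inv_mem ha.1) ha.2
    (by rw [inv_smul_smul]; exact mem_connectedComponentIn he) (mem_connectedComponentIn he)⟩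

theorem Orb.mem_stab (h : Orb N p W) (he : e ∈ p ⁻¹' W) (hg : g ∈ N)
    (hx : x ∈ connectedComponentIn (p ⁻¹' W) e)
    (hx' : g • x ∈ connectedComponentIn (p ⁻¹' W) e) : g ∈ h.stab he :=
  ⟨hg, h.smul_mem hg hx hx' (mem_connectedComponentIn he)⟩

theorem Orb.map_eq (h : Orb N p W) (y : M) : map p (𝓝[p ⁻¹' W] y) = 𝓝[W] p y := by
  rw [nhdsWithin, nhdsWithin, Filter.map_inf_principal_preimage,
    h.opn.map_nhds_eq h.cont.continuousAt]

theorem Orb.nhds_eq (h : Orb N p W) (hy : y ∈ connectedComponentIn (p ⁻¹' W) e) :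
    𝓝[connectedComponentIn (p ⁻¹' W) e] y = 𝓝[p ⁻¹' W] y := by
  refine le_antisymm (nhdsWithin_mono _ (connectedComponentIn_subset _ _)) ?_
  rw [connectedComponentIn_eq hy]
  exact nhdsWithin_le_of_mem (h.lc y (connectedComponentIn_subset _ _ hy))

theorem Orb.compact (h : Orb N p W) (e : M) :
    IsCompact (p '' connectedComponentIn (p ⁻¹' W) e) := by
  have h1 : p '' connectedComponentIn (p ⁻¹' W) e ⊆ W := by
    rintro _ ⟨y, hy, rfl⟩
    exact connectedComponentIn_subset (p ⁻¹' W) _ hy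
  have h2 : p '' connectedComponentIn (p ⁻¹' W) e =
      W ∩ closure (p '' connectedComponentIn (p ⁻¹' W) e) := by
    refine (subset_inter h1 subset_closure).antisymm fun z hz => ?_
    obtain ⟨y, rfl⟩ := h.sj z
    have h3 : p '' connectedComponentIn (p ⁻¹' W) y ∈ 𝓝[W] p y :=
      h.map_eq y ▸ image_mem_map (h.lc y hz.1)
    obtain ⟨_, ⟨x, hx, rfl⟩, h4⟩ := ((mem_closure_iff_frequently.1 hz.2).and_eventually
      (eventually_nhdsWithin_iff.1 h3)).exists
    obtain ⟨k, hk, h5⟩ := h4 (h1 ⟨x, hx, rfl⟩)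
    obtain ⟨g, hg, rfl⟩ := (h.fib k x).1 h5
    refine ⟨g • y, ?_, ((h.fib y _).2 ⟨g, hg, rfl⟩).symm⟩
    rw [connectedComponentIn_eq hx]
    exact h.smul hg (connectedComponentIn_eq hk ▸ mem_connectedComponentIn hz.1)
  rw [h2]
  exact h.cpt.inter_right isClosed_closure

/-- invariant continuous functions attain their maximum -/
theorem Orb.exists_max (h : Orb N p W) (he : e ∈ p ⁻¹' W) {u : M → ℝ}
    (hu : ContinuousOn u (connectedComponentIn (p ⁻¹' W) e))
    (hi : ∀ g ∈ h.stab he, ∀ y ∈ connectedComponentIn (p ⁻¹' W) e, u (g • y) = u y) :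
    ∃ x ∈ connectedComponentIn (p ⁻¹' W) e, ∀ y ∈ connectedComponentIn (p ⁻¹' W) e,
      u y ≤ u x := by
  classical
  let v : M' → ℝ := fun z =>
    if hz : z ∈ p '' connectedComponentIn (p ⁻¹' W) e then u hz.choose else 0
  have h1 : ∀ y ∈ connectedComponentIn (p ⁻¹' W) e, v (p y) = u y := fun y hy => by
    have hz : p y ∈ p '' connectedComponentIn (p ⁻¹' W) e := ⟨y, hy, rfl⟩
    obtain ⟨g, hg, h2⟩ := (h.fib _ _).1 hz.choose_spec.2
    rw [show v (p y) = u hz.choose from dif_pos hz,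
      ← hi g (h.mem_stab he hg hz.choose_spec.1 (by rw [h2]; exact hy)) _ hz.choose_spec.1, h2]
  have h2 : ContinuousOn v (p '' connectedComponentIn (p ⁻¹' W) e) := by
    rintro _ ⟨y, hy, rfl⟩
    refine ContinuousWithinAt.mono (t := W) ?_ ?_
    · rw [ContinuousWithinAt, ← h.map_eq, tendsto_map'_iff, ← h.nhds_eq hy, h1 y hy]
      exact (hu y hy).tendsto.congr' (eventually_nhdsWithin_of_forall fun x hx => (h1 x hx).symm)
    · rintro _ ⟨x, hx, rfl⟩
      exact connectedComponentIn_subset (p ⁻¹' W) _ hx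
  obtain ⟨_, ⟨x, hx, rfl⟩, h3⟩ := (h.compact e).exists_isMaxOn
    ⟨_, e, mem_connectedComponentIn he, rfl⟩ h2
  exact ⟨x, hx, fun y hy => by rw [← h1 x hx, ← h1 y hy]; exact h3 ⟨y, hy, rfl⟩⟩

/-- locally constant functions are constant -/
theorem Orb.const_of_loc {α : Type} (h : Orb N p W) (he : e ∈ p ⁻¹' W) {f : M → α}
    (hf : ∀ y ∈ connectedComponentIn (p ⁻¹' W) e, ∀ᶠ x in 𝓝[p ⁻¹' W] y, f x = f y)
    (hy : y ∈ connectedComponentIn (p ⁻¹' W) e) : f y = f e :=
  isPreconnected_connectedComponentIn.induction₂ (fun a b => f a = f b)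
    (fun x hx => h.nhds_eq hx ▸ (hf x hx).mono fun _ => Eq.symm) (fun _ _ _ _ _ _ => Eq.trans)
    (fun _ _ _ _ => Eq.symm) hy (mem_connectedComponentIn he)

/-- the global maximum principle -/
theorem Orb.const (h : Orb N p W) (he : e ∈ p ⁻¹' W) {u : M → ℝ}
    (hu : ContinuousOn u (connectedComponentIn (p ⁻¹' W) e))
    (hi : ∀ g ∈ h.stab he, ∀ y ∈ connectedComponentIn (p ⁻¹' W) e, u (g • y) = u y)
    (hm : ∀ y ∈ connectedComponentIn (p ⁻¹' W) e, (∀ᶠ x in 𝓝[p ⁻¹' W] y, u x ≤ u y) →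
      ∀ᶠ x in 𝓝[p ⁻¹' W] y, u x = u y) (hy : y ∈ connectedComponentIn (p ⁻¹' W) e) :
    u y = u e := by
  obtain ⟨x, hx, h1⟩ := h.exists_max he hu hi
  have h2 : ∀ y ∈ connectedComponentIn (p ⁻¹' W) e, u y = u x := fun y hy => by
    refine ((h.const_of_loc he (f := fun a => u a = u x) (fun a ha => ?_) hy).trans
      (h.const_of_loc he (f := fun a => u a = u x) (fun a ha => ?_) hx).symm).mpr rfl
    all_goals
      by_cases h3 : u a = u x
      · refine (hm a ha ?_).mono fun b hb => by rw [hb]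
        rw [← h.nhds_eq ha, h3]
        exact eventually_nhdsWithin_of_forall h1
      · rw [← h.nhds_eq ha]
        exact ((hu a ha).eventually_ne h3).mono fun b hb => propext (iff_of_false hb h3)
  rw [h2 y hy, h2 e (mem_connectedComponentIn he)]

end Orb

end

end Crest.Agent.X261.Gauss.Eta
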