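import Crest.Agent.X261.Gauss.NPa
import Crest.Agent.X261.Top.Defs

/-!
# X261 / Gauss / NP (helper28): bounded fibre energy excludes poles

`tau a z = da_1 ∧ … ∧ da_q` in coordinates.  If all minors are holomorphic multiples of the minor
`J`, which is not flat, and `∫_K |g|² ≤ C vol (a K)` for compact `K`, then `|g| ≤ C' |tau_J|`.

* `det_cols`, `cramer_div` : linear algebra;
* `np`, `np_vol`.
-/

set_option autoImplicit false

open Set Filter Topology Metric MeasureTheory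
open scoped ENNReal

noncomputable section

namespace Crest.Agent.X261.Gauss.NP

open Crest.Agent.R275.Geo (Cn)
open Crest.Agent.R273.Fock_243 (FI)
open Crest.Agent.X261.Top (wdg)

variable {n q : ℕ}

/-- a determinant of columns is a multiple of a minor -/
theorem det_cols (f : Fin q → Fin n) : ∃ (ε : ℂ) (I : FI n), ∀ v : Fin q → Fin n → ℂ,
    (Matrix.of fun k l => v k (f l)).det = ε * wdg v I := by
  by_cases hf : Function.Injective f
  · have h : (Finset.univ.map ⟨f, hf⟩).card = q := by simp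
    set o := (Finset.univ.map ⟨f, hf⟩).orderEmbOfFin h with ho
    have hr : range f = range o := by
      rw [ho, Finset.range_orderEmbOfFin]
      ext i
      simp
    let σ : Equiv.Perm (Fin q) :=
      ((Equiv.ofInjective f hf).trans (Equiv.setCongr hr)).trans
        (Equiv.ofInjective o o.injective).symm
    have hσ : ∀ l, o (σ l) = f l := fun l =>
      Equiv.apply_ofInjective_symm o.injective (Equiv.setCongr hr (Equiv.ofInjective f hf l))
    refine ⟨Equiv.Perm.sign σ, Finset.univ.map ⟨f, hf⟩, fun v => ?_⟩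
    rw [wdg, dif_pos h, ← Matrix.det_permute']
    congr 1
    ext k l
    simp only [Matrix.of_apply, Matrix.submatrix_apply, id]
    rw [← hσ]
  · obtain ⟨l, l', h1, h2⟩ := Function.not_injective_iff.1 hf
    exact ⟨0, ∅, fun v => by
      rw [zero_mul]
      exact Matrix.det_zero_of_column_eq h2 fun k => by simp [h1]⟩

/-- Cramer's rule with the denominators cleared -/
theorem cramer_div (v : Fin q → Fin n → ℂ) (j : Fin q → Fin n) (b : Fin n) (c : Fin q → ℂ)
    (hc : ∀ l₀, (Matrix.of fun k l => v k (Function.update j l₀ b l)).det =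
      c l₀ * (Matrix.of fun k l => v k (j l)).det)
    (h0 : (Matrix.of fun k l => v k (j l)).det ≠ 0) (k : Fin q) :
    v k b = ∑ l, c l * v k (j l) := by
  set M : Matrix (Fin q) (Fin q) ℂ := Matrix.of fun k l => v k (j l) with hM
  have h1 : ∀ l₀, M.cramer (fun k => v k b) l₀ = c l₀ * M.det := fun l₀ => by
    rw [Matrix.cramer_apply, ← hc]
    congr 1
    ext k l
    by_cases h : l = l₀
    · subst h
      simp
    · simp [hM, Matrix.updateCol_ne h, Function.update_of_ne h]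
  have h2 := congrFun (M.mulVec_cramer fun k => v k b) k
  simp only [Matrix.mulVec, dotProduct, h1, Pi.smul_apply, smul_eq_mul] at h2
  refine mul_left_cancel₀ h0 ?_
  rw [← h2, Finset.mul_sum]
  exact Finset.sum_congr rfl fun l _ => by simp only [hM, Matrix.of_apply]; ring

/-- the coefficients of `da` -/
def dA (a : Cn n → Cn q) (z : Cn n) : Fin q → Fin n → ℂ :=
  fun k b => fderiv ℂ a z (EuclideanSpace.single b 1) k

/-- `da_1 ∧ … ∧ da_q` -/
def tau (a : Cn n → Cn q) (z : Cn n) : FI n → ℂ := wdg (dA a z)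

theorem an_dA {a : Cn n → Cn q} {z : Cn n} (ha : AnalyticAt ℂ a z) (k : Fin q) (b : Fin n) :
    AnalyticAt ℂ (fun z => dA a z k b) z :=
  AnalyticAt.comp (f := fderiv ℂ a) (g := (EuclideanSpace.proj k : Cn q →L[ℂ] ℂ).comp
    (ContinuousLinearMap.apply ℂ (Cn q) (EuclideanSpace.single b (1 : ℂ) : Cn n)))
    (ContinuousLinearMap.analyticAt _ _) ha.fderiv

theorem an_tau {a : Cn n → Cn q} {z : Cn n} (ha : AnalyticAt ℂ a z) (I : FI n) :
    AnalyticAt ℂ (fun z => tau a z I) z := by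
  by_cases h : I.card = q
  · simp only [tau, wdg, dif_pos h, Matrix.det_apply', Matrix.of_apply]
    exact Finset.analyticAt_fun_sum _ fun σ _ => analyticAt_const.mul
      (Finset.analyticAt_fun_prod _ fun l _ => an_dA ha _ _)
  · simp only [tau, wdg, dif_neg h]
    exact analyticAt_const

/-- the columns are holomorphic combinations of the columns in `J` -/
theorem exists_comb {a : Cn n → Cn q} {z₀ : Cn n} (ha : AnalyticAt ℂ a z₀) {J : FI n}
    (hJ : J.card = q)
    (hd : ∀ I, ∃ c : Cn n → ℂ, AnalyticAt ℂ c z₀ ∧ ∀ᶠ z in 𝓝 z₀, tau a z I = c z * tau a z J)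
    (hne : ¬ ∀ᶠ z in 𝓝 z₀, tau a z J = 0) (b : Fin n) :
    ∃ c : Fin q → Cn n → ℂ, (∀ l, AnalyticAt ℂ (c l) z₀) ∧ ∀ᶠ z in 𝓝 z₀, ∀ k,
      dA a z k b = ∑ l, c l z * dA a z k (J.orderEmbOfFin hJ l) := by
  choose ε I hI using fun l => det_cols (Function.update (J.orderEmbOfFin hJ) l b)
  choose c hc hc' using hd
  have hτ : ∀ z, tau a z J = (Matrix.of fun k l => dA a z k (J.orderEmbOfFin hJ l)).det :=
    fun z => dif_pos hJ
  refine ⟨fun l z => ε l * c (I l) z, fun l => analyticAt_const.mul (hc _), ?_⟩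
  have h1 := ((eventually_all.2 fun l => hc' (I l)).and ha.eventually_analyticAt).and
    (eventually_all.2 fun l => (hc (I l)).eventually_analyticAt)
  obtain ⟨ρ, hρ, h2⟩ := nhds_basis_ball.eventually_iff.1 h1
  have h3 := R266.SCV.dense_ne_zero isOpen_ball (convex_ball z₀ ρ).isPreconnected
    (f := fun z => tau a z J) (fun z hz => an_tau (h2 hz).1.2 J) (by
      by_contra! h
      exact hne (Filter.mem_of_superset (ball_mem_nhds z₀ hρ) h))
  filter_upwards [ball_mem_nhds z₀ hρ] with z hz k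
  have h4 : ContinuousAt (fun z => dA a z k b -
      ∑ l, ε l * c (I l) z * dA a z k (J.orderEmbOfFin hJ l)) z :=
    ((an_dA (h2 hz).1.2 k b).sub (Finset.analyticAt_fun_sum _ fun l _ =>
      (analyticAt_const.mul ((h2 hz).2 l)).mul (an_dA (h2 hz).1.2 k _))).continuousAt
  refine sub_eq_zero.1 (isClosed_singleton.mem_of_frequently_of_tendsto
    ((h3 z hz).mono fun y hy => ?_) h4)
  refine sub_eq_zero.2 (cramer_div (dA a y) _ b (fun l => ε l * c (I l) y) (fun l => ?_)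
    (hτ y ▸ hy.2) k)
  rw [hI, ← hτ, mul_assoc, ← (h2 hy.1).1.1 l]
  rfl

/-- splitting of the coordinates -/
def spl {T : Type} [Fintype T] (σ : Fin q ⊕ T ≃ Fin n) : (Cn q × (T → ℂ)) ≃L[ℂ] Cn n :=
  LinearEquiv.toContinuousLinearEquiv
    { toFun := fun u => WithLp.toLp 2 fun i => Sum.elim u.1.ofLp u.2 (σ.symm i)
      invFun := fun z => (WithLp.toLp 2 fun l => z (σ (.inl l)), fun b => z (σ (.inr b)))
      map_add' := fun u v => by
        ext i
        rcases h : σ.symm i with l | b <;> simp [h]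
      map_smul' := fun c u => by
        ext i
        rcases h : σ.symm i with l | b <;> simp [h]
      left_inv := fun u => by ext <;> simp
      right_inv := fun z => by
        ext i
        obtain ⟨p, rfl⟩ := σ.surjective i
        rcases p with l | b <;> simp }

theorem spl_eq {T : Type} [Fintype T] (σ : Fin q ⊕ T ≃ Fin n) (y : Cn q) (s : T → ℂ) :
    spl σ (y, s) = ∑ l, y l • EuclideanSpace.single (σ (.inl l)) (1 : ℂ) +
      ∑ b, s b • EuclideanSpace.single (σ (.inr b)) (1 : ℂ) := by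
  classical
  ext i
  obtain ⟨p, rfl⟩ := σ.surjective i
  rcases p with l | b <;> simp [spl, Pi.single_apply]

theorem fd_spl {T : Type} [Fintype T] (σ : Fin q ⊕ T ≃ Fin n) (a : Cn n → Cn q) (z : Cn n)
    (y : Cn q) (s : T → ℂ) (k : Fin q) : fderiv ℂ a z (spl σ (y, s)) k =
      ∑ l, y l * dA a z k (σ (.inl l)) + ∑ b, s b * dA a z k (σ (.inr b)) := by
  rw [spl_eq]
  simp [dA]

/-- **bounded fibre energy excludes poles** -/
theorem np [MeasurableSpace (Cn n)] [BorelSpace (Cn n)] [MeasurableSpace (Cn q)] [BorelSpace (Cn q)]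
    (μ : Measure (Cn n)) [μ.IsAddHaarMeasure] (ν : Measure (Cn q)) [ν.IsAddHaarMeasure]
    {H : Type} [NormedAddCommGroup H] [NormedSpace ℂ H] {a : Cn n → Cn q} {g : Cn n → H}
    {z₀ : Cn n} (ha : AnalyticAt ℂ a z₀) (hg : ∀ᶠ z in 𝓝 z₀, DifferentiableAt ℂ g z) {J : FI n}
    (hd : ∀ I, ∃ c : Cn n → ℂ, AnalyticAt ℂ c z₀ ∧ ∀ᶠ z in 𝓝 z₀, tau a z I = c z * tau a z J)
    (hne : ¬ ∀ᶠ z in 𝓝 z₀, tau a z J = 0) {N : Set (Cn n)} (hN : N ∈ 𝓝 z₀) {C : ℝ≥0∞}
    (hC : C < ⊤) (hb : ∀ K ⊆ N, IsCompact K → ∫⁻ z in K, ‖g z‖ₑ ^ 2 ∂μ ≤ C * ν (a '' K)) :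
    ∃ C' : ℝ, ∀ᶠ z in 𝓝 z₀, ‖g z‖ ≤ C' * ‖tau a z J‖ := by
  classical
  have hJ : J.card = q := by
    by_contra h
    exact hne (Eventually.of_forall fun z => dif_neg h)
  choose c hc hc' using exists_comb ha hJ hd hne
  let σ : Fin q ⊕ {b // b ∉ J} ≃ Fin n :=
    (Equiv.sumCongr (J.orderIsoOfFin hJ).toEquiv (Equiv.refl _)).trans (Equiv.sumCompl (· ∈ J))
  have hσ1 : ∀ l, σ (.inl l) = J.orderEmbOfFin hJ l := fun _ => rfl
  have hσ2 : ∀ b, σ (.inr b) = b := fun _ => rfl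
  let φ := spl σ
  obtain ⟨u₀, rfl⟩ := φ.surjective z₀
  have hφ : Tendsto φ (𝓝 u₀) (𝓝 (φ u₀)) := φ.continuous.continuousAt
  have hf : ∀ u v, fderiv ℂ (a ∘ φ) u v = fderiv ℂ a (φ u) (φ v) := fun u v => by
    rw [φ.comp_right_fderiv]
    rfl
  have hj : ∀ u, jac (a ∘ φ) u = tau a (φ u) J := fun u => by
    rw [jac, tau, wdg, dif_pos hJ, ContinuousLinearMap.det,
      ← LinearMap.det_toMatrix (PiLp.basisFun 2 ℂ (Fin q))]
    congr 1
    ext k l
    rw [LinearMap.toMatrix_apply, PiLp.basisFun_repr, PiLp.basisFun_apply]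
    change fderiv ℂ (a ∘ φ) u (_, 0) k = _
    rw [hf, fd_spl]
    simp [hσ1]
  let w : Cn q × ({b // b ∉ J} → ℂ) → ({b // b ∉ J} → ℂ) →L[ℂ] Cn q := fun u =>
    ∑ b : {b // b ∉ J}, ∑ l, (-c b l (φ u)) •
      (ContinuousLinearMap.proj b).smulRight (EuclideanSpace.single l (1 : ℂ))
  have hw : AnalyticAt ℂ w u₀ := Finset.analyticAt_fun_sum _ fun b _ =>
    Finset.analyticAt_fun_sum _ fun l _ =>
      ((hc b l).comp (φ.analyticAt u₀)).neg.smul analyticAt_const
  have hw' : ∀ u s l, w u s l = -∑ b : {b // b ∉ J}, s b * c b l (φ u) := fun u s l => by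
    simp [w, Pi.single_apply, mul_comm]
  let κ : Measure ({b // b ∉ J} → ℂ) := Measure.addHaar
  have hm : ((ν.prod κ).map φ).IsAddHaarMeasure := φ.isAddHaarMeasure_map _
  have hs := Measure.isAddLeftInvariant_eq_smul ((ν.prod κ).map φ) μ
  obtain ⟨C', h⟩ := core ν κ (a := a ∘ φ) (g := g ∘ φ) (w := w) (ha.comp (φ.analyticAt u₀))
    ((hφ.eventually hg).mono fun u hu => hu.comp u φ.differentiableAt) hw
    ((hφ.eventually (eventually_all.2 hc')).mono fun u hu s => by
      ext k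
      rw [hf, fd_spl]
      have h1 : ∑ b : {b // b ∉ J}, s b * dA a (φ u) k (σ (.inr b)) = ∑ b : {b // b ∉ J}, ∑ l,
          s b * (c b l (φ u) * dA a (φ u) k (J.orderEmbOfFin hJ l)) :=
        Finset.sum_congr rfl fun b _ => by rw [hσ2, hu b k, Finset.mul_sum]
      rw [h1, Finset.sum_comm]
      simp only [hw', hσ1, neg_mul, Finset.sum_mul, mul_assoc, Finset.sum_neg_distrib]
      simp) (hφ hN) (C := Measure.addHaarScalarFactor ((ν.prod κ).map φ) μ * C)
    (ENNReal.mul_ne_top ENNReal.coe_ne_top hC.ne) fun K hK hKc => by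
      have h1 := (⟨φ.continuous.measurable, rfl⟩ : MeasurePreserving φ (ν.prod κ)
        ((ν.prod κ).map φ)).setLIntegral_comp_emb φ.toHomeomorph.measurableEmbedding
        (fun z => ‖g z‖ₑ ^ 2) K
      refine h1.le.trans ?_
      conv_lhs => rw [hs]
      rw [Measure.restrict_smul, lintegral_smul_measure, image_comp, mul_assoc]
      exact mul_le_mul_right (hb _ (image_subset_iff.2 hK) (hKc.image φ.continuous)) _
  refine ⟨C', ?_⟩
  have h1 : Tendsto φ.symm (𝓝 (φ u₀)) (𝓝 u₀) := by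
    simpa using φ.symm.continuous.tendsto (φ u₀)
  filter_upwards [h1.eventually h] with z hz
  simpa [hj] using hz

/-- the same for the volume -/
theorem np_vol {H : Type} [NormedAddCommGroup H] [NormedSpace ℂ H] {a : Cn n → Cn q}
    {g : Cn n → H} {z₀ : Cn n} (ha : AnalyticAt ℂ a z₀)
    (hg : ∀ᶠ z in 𝓝 z₀, DifferentiableAt ℂ g z) {J : FI n}
    (hd : ∀ I, ∃ c : Cn n → ℂ, AnalyticAt ℂ c z₀ ∧ ∀ᶠ z in 𝓝 z₀, tau a z I = c z * tau a z J)
    (hne : ¬ ∀ᶠ z in 𝓝 z₀, tau a z J = 0) {N : Set (Cn n)} (hN : N ∈ 𝓝 z₀) {C : ℝ≥0∞}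
    (hC : C < ⊤) (hb : ∀ K ⊆ N, IsCompact K → ∫⁻ z in K, ‖g z‖ₑ ^ 2 ≤ C * volume (a '' K)) :
    ∃ C' : ℝ, ∀ᶠ z in 𝓝 z₀, ‖g z‖ ≤ C' * ‖tau a z J‖ :=
  np volume volume ha hg hd hne hN hC hb

end Crest.Agent.X261.Gauss.NP
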