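import Crest.Agent.X261.Gauss.Flat
import Crest.Agent.X261.Gauss.NP
import Crest.Agent.X261.Plk.D

/-!
# Row 261, GAUSS (helper56), file `Ext`: the form `η^r ∧ τ` has no poles (flat version)

* `ext_cop` : extension across `d = 0` of a function bounded off a set of codimension two;
* `sp_ext`  : the scalar components of `Sp` extend across `τ = 0`.
-/

set_option autoImplicit false
set_option linter.unusedSectionVars false
set_option linter.dupNamespace false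

open Set Filter Topology Metric MeasureTheory
open scoped ENNReal

namespace Crest.Agent.X261.Gauss

open Crest.Agent.R275.Geo
open Crest.Agent.R273.Fock_243 (FI)
open Crest.Agent.R281.Kd_22 (CopF)
open Crest.Agent.R281.Thn_280 (riemann_ext)
open Crest.Agent.X261.Plk (Hor Sp)
open Crest.Agent.X261.Gauss.NP (dA tau an_dA an_tau np_vol)

noncomputable section

section

variable {E : Type} [NormedAddCommGroup E] [NormedSpace ℂ E] [FiniteDimensional ℂ E]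

theorem ev_freq_ne {f : E → ℂ} {p : E} (hf : AnalyticAt ℂ f p) (h : ¬ ∀ᶠ z in 𝓝 p, f z = 0) :
    ∀ᶠ z in 𝓝 p, ∃ᶠ w in 𝓝 z, f w ≠ 0 := by
  obtain ⟨ρ, hρ, hA⟩ := Metric.eventually_nhds_iff_ball.1 hf.eventually_analyticAt
  filter_upwards [ball_mem_nhds p hρ] with z hz
  rw [← not_eventually]
  intro h0
  have := AnalyticOnNhd.eqOn_zero_of_preconnected_of_eventuallyEq_zero (f := f) hA
    (convex_ball p ρ).isPreconnected hz h0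
  exact h (mem_of_superset (ball_mem_nhds p hρ) this)

/-- extension across `d = 0`, with boundedness only off the common zeros of a coprime family -/
theorem ext_cop {κ : Type} [Fintype κ] {t : κ → E → ℂ} {d g : E → ℂ} {p : E}
    (ht : ∀ j, AnalyticAt ℂ (t j) p) (hcop : CopF t p) (hd : AnalyticAt ℂ d p)
    (hne : ¬ ∀ᶠ z in 𝓝 p, d z = 0)
    (hg : ∀ᶠ z in 𝓝 p, d z ≠ 0 → (∃ j, t j z ≠ 0) → DifferentiableAt ℂ g z)
    (hb : ∀ᶠ z in 𝓝 p, (∃ j, t j z ≠ 0) → ∃ C : ℝ, ∀ᶠ w in 𝓝 z, d w ≠ 0 → ‖g w‖ ≤ C) :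
    ∃ h : E → ℂ, AnalyticAt ℂ h p ∧ ∀ᶠ z in 𝓝 p, d z ≠ 0 → (∃ j, t j z ≠ 0) → h z = g z := by
  obtain ⟨j₀, hj₀⟩ : ∃ j, ¬ ∀ᶠ z in 𝓝 p, t j z = 0 := by
    by_contra hcon
    push Not at hcon
    exact hcop (fun _ => 0) analyticAt_const (fun j => ⟨fun _ => 0, analyticAt_const,
      (hcon j).mono fun z hz => by rw [hz, zero_mul]⟩) rfl
  obtain ⟨O, hO, hOo, hpO⟩ := _root_.eventually_nhds_iff.1 ((((hg.and hb).and
    (eventually_all.2 fun j => (ht j).eventually_analyticAt)).and hd.eventually_analyticAt).and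
    ((ev_freq_ne hd hne).and (ev_freq_ne (ht j₀) hj₀)))
  have hO' : IsOpen (O ∩ {z | ∃ j, t j z ≠ 0}) := by
    refine isOpen_iff_mem_nhds.2 fun z ⟨hz, j, hj⟩ => inter_mem (hOo.mem_nhds hz) ?_
    exact (((hO z hz).1.1.2 j).continuousAt.eventually_ne hj).mono fun w hw => ⟨j, hw⟩
  obtain ⟨g₁, hg₁, e₁⟩ := riemann_ext (f := g) (D := d) hO' (fun z hz => (hO z hz.1).1.2)
    (fun z hz => (hO z hz.1).2.1)
    (fun z hz => ((hO z hz.1.1).1.1.1.1 hz.2 hz.1.2).differentiableWithinAt) fun z hz => by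
      obtain ⟨C, hC⟩ := (hO z hz.1).1.1.1.2 hz.2
      exact ⟨_, hC, C, fun w hw => hw⟩
  obtain ⟨N, hN, M, hM⟩ := bdd_cop ht hcop (hOo.mem_nhds hpO) (g := g₁)
    fun z hz hj => hg₁.differentiableAt (hO'.mem_nhds ⟨hz, hj⟩)
  obtain ⟨O₂, hO₂, hO₂o, hpO₂⟩ := _root_.mem_nhds_iff.1 (inter_mem hN (hOo.mem_nhds hpO))
  obtain ⟨h, hh, e₂⟩ := riemann_ext (f := g₁) (D := t j₀) hO₂o
    (fun z hz => (hO z (hO₂ hz).2).1.1.2 j₀) (fun z hz => (hO z (hO₂ hz).2).2.2)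
    (hg₁.mono fun z hz => ⟨(hO₂ hz.1).2, j₀, hz.2⟩)
    fun z hz => ⟨O₂, hO₂o.mem_nhds hz, M, fun w hw hw' => hM w (hO₂ hw).1 ⟨j₀, hw'⟩⟩
  refine ⟨h, R266.SCV.analyticOnNhd_of_differentiableOn hO₂o hh p hpO₂, ?_⟩
  filter_upwards [hO₂o.mem_nhds hpO₂] with z hz hdz hj
  have hz' : z ∈ O ∩ {z | ∃ j, t j z ≠ 0} := ⟨(hO₂ hz).2, hj⟩
  rw [← e₁ z hz' hdz]
  refine tendsto_nhds_unique_of_frequently_eq
    (hh.continuousOn.continuousAt (hO₂o.mem_nhds hz))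
    (hg₁.continuousOn.continuousAt (hO'.mem_nhds hz')) ?_
  exact ((hO z hz'.1).2.2.and_eventually (hO₂o.mem_nhds hz)).mono fun w hw => e₂ w hw.2 hw.1

end

variable {n q r : ℕ} {H W : Type} [NormedAddCommGroup H] [NormedSpace ℂ H]
  [NormedAddCommGroup W] [NormedSpace ℂ W]

theorem sp_bdd (G : H [⋀^Fin r]→L[ℂ] W) {a : Cn n → Cn q} {S : Cn n → FI n → H} {z₀ : Cn n}
    (ha : AnalyticAt ℂ a z₀) (hS : ∀ᶠ z in 𝓝 z₀, ∀ I, DifferentiableAt ℂ (fun y => S y I) z)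
    (hor : ∀ᶠ z in 𝓝 z₀, Hor (dA a z) (S z)) {d : Cn n → ℂ} {t : FI n → Cn n → ℂ}
    (ht : ∀ I, AnalyticAt ℂ (t I) z₀) (hτ : ∀ᶠ z in 𝓝 z₀, ∀ I, tau a z I = d z * t I z)
    (hne : ∃ᶠ z in 𝓝 z₀, d z ≠ 0) {J : FI n} (hJ : t J z₀ ≠ 0) {N : Set (Cn n)} (hN : N ∈ 𝓝 z₀)
    {C : ℝ≥0∞} (hC : C < ⊤)
    (hb : ∀ K ⊆ N, IsCompact K → ∀ I, ∫⁻ z in K, ‖S z I‖ₑ ^ 2 ≤ C * volume (a '' K)) :
    ∃ M : ℝ, ∀ᶠ z in 𝓝 z₀, d z ≠ 0 → ∀ I, ‖Sp G.toAlternatingMap (dA a z) (S z) I‖ ≤ M := by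
  have hJ' := (ht J).continuousAt.eventually_ne hJ
  have h1 : ∀ I, ∃ C' : ℝ, ∀ᶠ z in 𝓝 z₀, ‖S z I‖ ≤ C' * ‖tau a z J‖ := fun I =>
    np_vol ha (hS.mono fun z hz => hz I) (fun I' => ⟨fun z => t I' z / t J z,
      (ht I').div (ht J) hJ, by
        filter_upwards [hτ, hJ'] with z h1 h2
        rw [h1, h1]
        field_simp⟩)
      (fun h0 => by
        obtain ⟨z, h1, h2, h3, h4⟩ := (hne.and_eventually (h0.and (hτ.and hJ'))).exists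
        exact mul_ne_zero h1 h4 (h3 J ▸ h2)) hN hC fun K hK hKc => hb K hK hKc I
  choose C' hC' using h1
  obtain ⟨s, hs⟩ := (finite_range C').bddAbove
  have h2 : ∀ I, ∀ᶠ z in 𝓝 z₀, ‖tau a z I‖ ≤ ‖tau a z₀‖ + 1 := fun I =>
    ((an_tau ha I).continuousAt.norm.eventually (gt_mem_nhds
      ((norm_le_pi_norm (tau a z₀) I).trans_lt (lt_add_one _)))).mono fun z hz => hz.le
  obtain ⟨C₁, -, hC₁⟩ := Plk.exists_norm_Sp (n := n) G q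
  refine ⟨C₁ * (‖tau a z₀‖ + 1) * s ^ r, ?_⟩
  filter_upwards [eventually_all.2 hC', eventually_all.2 h2, hor, hτ, hJ'] with z h3 h4 h5 h6 h7 h8
  refine (hC₁ _ _ _ s h4).2 h5 J ?_ fun I => (h3 I).trans
    (mul_le_mul_of_nonneg_right (hs ⟨I, rfl⟩) (norm_nonneg _))
  change tau a z J ≠ 0
  rw [h6]
  exact mul_ne_zero h8 h7

theorem sp_ext (G : H [⋀^Fin r]→L[ℂ] W) {a : Cn n → Cn q} {S : Cn n → FI n → H} {z₀ : Cn n}
    (ha : AnalyticAt ℂ a z₀) (hS : ∀ᶠ z in 𝓝 z₀, ∀ I, DifferentiableAt ℂ (fun y => S y I) z)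
    (hor : ∀ᶠ z in 𝓝 z₀, Hor (dA a z) (S z)) {d : Cn n → ℂ} {t : FI n → Cn n → ℂ}
    (hd : AnalyticAt ℂ d z₀) (ht : ∀ I, AnalyticAt ℂ (t I) z₀) (hcop : CopF t z₀)
    (hτ : ∀ᶠ z in 𝓝 z₀, ∀ I, tau a z I = d z * t I z) (hne : ¬ ∀ᶠ z in 𝓝 z₀, d z = 0)
    {N : Set (Cn n)} (hN : N ∈ 𝓝 z₀) {C : ℝ≥0∞} (hC : C < ⊤)
    (hb : ∀ K ⊆ N, IsCompact K → ∀ I, ∫⁻ z in K, ‖S z I‖ₑ ^ 2 ≤ C * volume (a '' K))
    (l : W →L[ℂ] ℂ) (I : FI n) : ∃ h : Cn n → ℂ, AnalyticAt ℂ h z₀ ∧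
      ∀ᶠ z in 𝓝 z₀, tau a z ≠ 0 → h z = l (Sp G.toAlternatingMap (dA a z) (S z) I) := by
  have hg : ∀ᶠ z in 𝓝 z₀, d z ≠ 0 → (∃ j, t j z ≠ 0) →
      DifferentiableAt ℂ (fun z => l (Sp G.toAlternatingMap (dA a z) (S z) I)) z := by
    filter_upwards [ha.eventually_analyticAt, hS, hor.eventually_nhds, hτ]
      with z h1 h2 h3 h4 h5 ⟨J, hJ⟩
    refine l.differentiableAt.comp z (Plk.differentiableAt_Sp G
      (fun k j => (an_dA h1 k j).differentiableAt) h2 h3 (fun h0 => ?_) I)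
    exact mul_ne_zero h5 hJ ((h4 J).symm.trans (congrFun h0 J))
  have hb' : ∀ᶠ z in 𝓝 z₀, (∃ j, t j z ≠ 0) → ∃ C : ℝ, ∀ᶠ w in 𝓝 z, d w ≠ 0 →
      ‖l (Sp G.toAlternatingMap (dA a w) (S w) I)‖ ≤ C := by
    filter_upwards [ha.eventually_analyticAt, hS.eventually_nhds, hor.eventually_nhds,
      hτ.eventually_nhds, eventually_all.2 fun I => (ht I).eventually_analyticAt,
      ev_freq_ne hd hne, eventually_mem_nhds_iff.2 hN] with z h1 h2 h3 h4 h5 h6 h7 ⟨J, hJ⟩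
    obtain ⟨M, hM⟩ := sp_bdd G h1 h2 h3 h5 h4 h6 hJ h7 hC hb
    exact ⟨‖l‖ * M, hM.mono fun w hw hd => (l.le_opNorm _).trans
      (mul_le_mul_of_nonneg_left (hw hd I) (norm_nonneg _))⟩
  obtain ⟨h, h1, h2⟩ := ext_cop ht hcop hd hne hg hb'
  refine ⟨h, h1, ?_⟩
  filter_upwards [h2, hτ] with z h3 h4 h5
  obtain ⟨J, hJ⟩ := Function.ne_iff.1 h5
  rw [h4] at hJ
  exact h3 (left_ne_zero_of_mul hJ) ⟨J, right_ne_zero_of_mul hJ⟩

end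

end Crest.Agent.X261.Gauss
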