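import Crest.Agent.X261.Gauss.TP
import Crest.Agent.X261.Plk.D
import Crest.Agent.X261.Plk.V
import Crest.Agent.X261.Grp.Tits

/-!
# Row 261, GAUSS (helper56), file `GS`: the Gauss map of `S`

* `GM.ofBd`   : weights from local comparability of the norms;
* `Frm.sp`, `Frm.Rk r` : the span of the values of `S`, its maximal dimension;
* `Frm.gm`    : the family of Plücker vectors;
* `Frm.triv`  : no nontrivial normal subgroup preserves a value of the Gauss map.
-/

set_option autoImplicit false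
set_option linter.unusedSectionVars false
set_option linter.dupNamespace false

open Set Filter Topology MeasureTheory Module Matrix
open scoped ENNReal InnerProductSpace

namespace Crest.Agent.X261.Gauss

open Crest.Agent.R275.Geo Crest.Agent.R275.Core144 Crest.Agent.R273.UCov_914
open Crest.Agent.R273.Fock_243 (FI Gam)
open Crest.Agent.R189 (Amen)
open Crest.Agent.X261.Plk (R1 fn wf snf Pc wc pmc norm_le_fn)

noncomputable section

variable {n : ℕ} {X : Type} [TopologicalSpace X] {A : Atl n X} {G : Type} [Group G]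

theorem exists_wt [CompactSpace X] [T2Space X] [Finite A.ι] {N : A.ι → X → ℝ}
    (h0 : ∀ i x, 0 ≤ N i x) (h : ∀ i j, ∃ m : X → ℝ,
      ContinuousOn m ((A.e i).source ∩ (A.e j).source) ∧
        ∀ x ∈ (A.e i).source ∩ (A.e j).source, N i x ≤ m x * N j x) :
    ∃ wt : A.ι → X → ℝ, (∀ i, ∀ x ∈ (A.e i).source, ∃ C : ℝ, ∀ᶠ y in 𝓝 x, |wt i y| ≤ C) ∧
      ∀ i j, ∀ x ∈ (A.e i).source ∩ (A.e j).source,
        N i x ^ 2 * Real.exp (-wt i x) = N j x ^ 2 * Real.exp (-wt j x) := by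
  obtain ⟨K, hK1, hK2, hK3⟩ := MonD.exists_shrink A
  choose c hc using fun x => mem_iUnion.1 (eq_univ_iff_forall.1 hK3 x)
  choose m hm hle using h
  have hz : ∀ i j, ∀ x ∈ (A.e i).source ∩ (A.e j).source, N j x = 0 → N i x = 0 :=
    fun i j x hx h1 => le_antisymm (by simpa [h1] using hle i j x hx) (h0 i x)
  have key : ∀ i, ∀ x ∈ (A.e i).source,
      N i x ^ 2 * Real.exp (-Real.log (N i x ^ 2 / N (c x) x ^ 2)) = N (c x) x ^ 2 := by
    intro i x hx
    by_cases h1 : N i x = 0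
    · rw [h1, hz _ _ x ⟨hK2 _ (hc x), hx⟩ h1]; simp
    · have h2 : N (c x) x ≠ 0 := fun h2 => h1 (hz _ _ x ⟨hx, hK2 _ (hc x)⟩ h2)
      rw [Real.exp_neg, Real.exp_log (by positivity)]
      field_simp
  refine ⟨fun i x => Real.log (N i x ^ 2 / N (c x) x ^ 2), fun i x hx => ?_,
    fun i j x hx => by rw [key i x hx.1, key j x hx.2]⟩
  obtain ⟨V, hV, hVs, hVc⟩ := local_compact_nhds ((A.e i).open_source.mem_nhds hx)
  have hb : ∀ j, ∃ M : ℝ, ∀ y ∈ V ∩ K j, m i j y ≤ M ∧ m j i y ≤ M := by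
    intro j
    have hc' : IsCompact (V ∩ K j) := hVc.inter (hK1 j)
    obtain ⟨M1, h1⟩ := hc'.bddAbove_image ((hm i j).mono fun y hy => ⟨hVs hy.1, hK2 j hy.2⟩)
    obtain ⟨M2, h2⟩ := hc'.bddAbove_image ((hm j i).mono fun y hy => ⟨hK2 j hy.2, hVs hy.1⟩)
    exact ⟨max M1 M2, fun y hy => ⟨(h1 ⟨y, hy, rfl⟩).trans (le_max_left _ _),
      (h2 ⟨y, hy, rfl⟩).trans (le_max_right _ _)⟩⟩
  choose M hM using hb
  obtain ⟨M', hM'⟩ := (finite_range M).bddAbove
  refine ⟨Real.log (max M' 1 ^ 2), Filter.mem_of_superset hV fun y hy => ?_⟩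
  have hy1 := hVs hy
  have hy2 := hK2 _ (hc y)
  have h3 : M (c y) ≤ max M' 1 := (hM' ⟨_, rfl⟩).trans (le_max_left _ _)
  have h4 : (1 : ℝ) ≤ max M' 1 := le_max_right _ _
  change |Real.log (N i y ^ 2 / N (c y) y ^ 2)| ≤ _
  by_cases h1 : N i y = 0
  · rw [h1]
    simpa using Real.log_nonneg h4
  have h2 : N (c y) y ≠ 0 := fun h2 => h1 (hz _ _ y ⟨hy1, hy2⟩ h2)
  have h5 : 0 < N i y := (h0 _ _).lt_of_ne' h1
  have h6 : 0 < N (c y) y := (h0 _ _).lt_of_ne' h2
  have h7 : N i y ≤ max M' 1 * N (c y) y := (hle _ _ y ⟨hy1, hy2⟩).trans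
    (mul_le_mul_of_nonneg_right (((hM _ y ⟨hy, hc y⟩).1).trans h3) h6.le)
  have h8 : N (c y) y ≤ max M' 1 * N i y := (hle _ _ y ⟨hy2, hy1⟩).trans
    (mul_le_mul_of_nonneg_right (((hM _ y ⟨hy, hc y⟩).2).trans h3) h5.le)
  rw [abs_le]
  constructor
  · rw [neg_le, ← Real.log_inv, inv_div]
    refine Real.log_le_log (by positivity) ?_
    rw [div_le_iff₀ (by positivity), ← mul_pow]
    exact pow_le_pow_left₀ h6.le h8 2
  · refine Real.log_le_log (by positivity) ?_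
    rw [div_le_iff₀ (by positivity), ← mul_pow]
    exact pow_le_pow_left₀ h5.le h7 2

theorem contOn_of_holAt {i : A.ι} {U : Set X} {f : X → ℂ} (h : HolAt A i U f) :
    ContinuousOn f ((A.e i).source ∩ U) :=
  (h.continuousOn.comp ((A.e i).continuousOn.mono inter_subset_left) fun x hx =>
    ⟨(A.e i).map_source hx.1, by rw [mem_preimage, (A.e i).left_inv hx.1]; exact hx.2⟩).congr
    fun x hx => by rw [Function.comp_apply, (A.e i).left_inv hx.1]

theorem contOn_GamJ (i j : A.ι) (S T : FI n) :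
    ContinuousOn (fun x => Gam (Jm A i j x)ᵀ S T) ((A.e i).source ∩ (A.e j).source) := by
  have h : Continuous fun B : Matrix (Fin n) (Fin n) ℂ => Gam B S T := by
    unfold Gam
    split_ifs
    · exact (continuous_id.matrix_submatrix _ _).matrix_det
    · exact continuous_const
  exact h.comp_continuousOn (continuousOn_pi.2 fun a => continuousOn_pi.2 fun b =>
    contOn_of_holAt (holAt_J i j b a))

section wc

variable {H : Type} [NormedAddCommGroup H] [InnerProductSpace ℂ H] {r : ℕ}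

/-- the Plücker vectors of a finite family -/
def pl (r : ℕ) (S : FI n → H) : (Fin r → FI n) → Pc H r := fun I => wc H r fun k => S (I k)

theorem pl_mv (B : Matrix (FI n) (FI n) ℂ) (S : FI n → H) (I : Fin r → FI n) :
    pl r (mv B S) I = ∑ J : Fin r → FI n, (∏ k, B (I k) (J k)) • pl r S J := by
  unfold pl mv
  refine ((wc H r).toContinuousMultilinearMap.toMultilinearMap.map_sum
    (fun k J => B (I k) J • S J)).trans (Finset.sum_congr rfl fun J _ => ?_)
  exact (wc H r).toContinuousMultilinearMap.toMultilinearMap.map_smul_univ _ _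

theorem norm_fn_le_sum {κ W : Type*} [Fintype κ] [NormedAddCommGroup W] [InnerProductSpace ℂ W]
    (a : κ → W) : ‖fn a‖ ≤ ∑ k, ‖a k‖ := by
  refine (pow_le_pow_iff_left₀ (norm_nonneg _) (by positivity) two_ne_zero).1 ?_
  rw [Plk.norm_fn_sq]
  exact Finset.sum_sq_le_sq_sum_of_nonneg fun k _ => norm_nonneg _

theorem norm_pl_mv (B : Matrix (FI n) (FI n) ℂ) (S : FI n → H) :
    ‖fn (pl r (mv B S))‖ ≤
      (∑ I : Fin r → FI n, ∑ J : Fin r → FI n, ‖∏ k, B (I k) (J k)‖) * ‖fn (pl r S)‖ := by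
  refine (norm_fn_le_sum _).trans ?_
  rw [Finset.sum_mul]
  refine Finset.sum_le_sum fun I _ => ?_
  rw [pl_mv, Finset.sum_mul]
  refine (norm_sum_le _ _).trans (Finset.sum_le_sum fun J _ => ?_)
  rw [norm_smul]
  exact mul_le_mul_of_nonneg_left (norm_le_fn _ _) (norm_nonneg _)

theorem span_sub_le (S : FI n → H) (I : Fin r → FI n) :
    Submodule.span ℂ (range fun k => S (I k)) ≤ Submodule.span ℂ (range S) :=
  Submodule.span_mono (by rintro _ ⟨k, rfl⟩; exact ⟨_, rfl⟩)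

theorem span_of_pl {S : FI n → H} (hr : finrank ℂ (Submodule.span ℂ (range S)) ≤ r)
    {I : Fin r → FI n} (hI : pl r S I ≠ 0) :
    Submodule.span ℂ (range fun k => S (I k)) = Submodule.span ℂ (range S) ∧
      finrank ℂ (Submodule.span ℂ (range S)) = r := by
  have := FiniteDimensional.span_of_finite ℂ (finite_range S)
  have h1 := finrank_span_eq_card (Plk.wc_ne_zero_iff.1 hI)
  rw [Fintype.card_fin] at h1
  have h2 := Submodule.eq_of_le_of_finrank_le (span_sub_le S I) (hr.trans h1.ge)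
  exact ⟨h2, h2 ▸ h1⟩

theorem pl_ne_zero {S : FI n → H} (hr : finrank ℂ (Submodule.span ℂ (range S)) = r) :
    pl r S ≠ 0 := by
  obtain ⟨κ, a, -, h1, h2⟩ := exists_linearIndependent' ℂ S
  have : Finite κ := by
    have := FiniteDimensional.span_of_finite ℂ (finite_range S)
    have h3 : LinearIndependent ℂ fun k => (⟨S (a k), Submodule.subset_span ⟨_, rfl⟩⟩ :
        Submodule.span ℂ (range S)) :=
      LinearIndependent.of_comp (Submodule.span ℂ (range S)).subtype h2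
    exact h3.finite
  have := Fintype.ofFinite κ
  have h3 := finrank_span_eq_card h2
  rw [h1, hr] at h3
  let e : Fin r ≃ κ := (Fintype.equivFinOfCardEq h3.symm).symm
  exact Function.ne_iff.2 ⟨fun k => a (e k), Plk.wc_ne_zero_iff.2 (h2.comp e e.injective)⟩

theorem pl_of_le {S S' : FI n → H} (hr : finrank ℂ (Submodule.span ℂ (range S')) ≤ r)
    {J : Fin r → FI n} (hJ : pl r S' J ≠ 0) (h : ∀ I, S I ∈ Submodule.span ℂ (range S'))
    (I : Fin r → FI n) : ∃ c : ℂ, pl r S I = c • pl r S' J :=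
  Plk.wc_of_span_le fun k => by rw [(span_of_pl hr hJ).1]; exact h _

theorem pl_r1 {S : FI n → H} (hr : finrank ℂ (Submodule.span ℂ (range S)) ≤ r) : R1 (pl r S) := by
  by_cases h : pl r S = 0
  · exact ⟨0, fun I => ⟨0, by simp [h]⟩⟩
  · obtain ⟨J, hJ⟩ := Function.ne_iff.1 h
    exact ⟨_, pl_of_le hr hJ fun I => Submodule.subset_span ⟨I, rfl⟩⟩

theorem snf_pl_of_le {S S' : FI n → H} (hr : finrank ℂ (Submodule.span ℂ (range S')) = r)
    (h : ∀ I, S I ∈ Submodule.span ℂ (range S')) : snf (pl r S) (pl r S') = 0 := by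
  obtain ⟨J, hJ⟩ := Function.ne_iff.1 (pl_ne_zero hr)
  rw [snf, Plk.wf_eq_zero.2, norm_zero, zero_div]
  intro I I'
  obtain ⟨c, hc⟩ := pl_of_le hr.le hJ h I
  obtain ⟨c', hc'⟩ := pl_of_le hr.le hJ (fun I => Submodule.subset_span ⟨I, rfl⟩) I'
  rw [hc, hc', Plk.w2_smul_left, Plk.w2_smul_right, Plk.w2_self, smul_zero, smul_zero]

theorem span_eq_of_snf {S S' : FI n → H} (hr : finrank ℂ (Submodule.span ℂ (range S)) = r)
    (hr' : finrank ℂ (Submodule.span ℂ (range S')) = r) (h : snf (pl r S) (pl r S') = 0) :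
    Submodule.span ℂ (range S) = Submodule.span ℂ (range S') := by
  obtain ⟨I, hI⟩ := Function.ne_iff.1 (pl_ne_zero hr)
  obtain ⟨J, hJ⟩ := Function.ne_iff.1 (pl_ne_zero hr')
  rw [Plk.snf_eq_sn (pl_r1 hr.le) (pl_r1 hr'.le) hI hJ, Plk.sn_eq_zero_iff hI hJ] at h
  obtain ⟨c, hc⟩ := h
  rw [← (span_of_pl hr.le hI).1, ← (span_of_pl hr'.le hJ).1]
  exact Plk.span_eq_of_wc hI hc

end wc

namespace Frm

variable {D : MonD A G} {q : ℕ} {H : Type} [NormedAddCommGroup H] [InnerProductSpace ℂ H]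
  (Φ : Frm D q H)

/-- `r` is the maximal rank of `S` -/
structure Rk (r : ℕ) : Prop where
  le : ∀ i v, ∀ x ∈ (A.e i).source, finrank ℂ (Submodule.span ℂ (range (Φ.S i v x))) ≤ r
  eq : ∃ i v, ∃ x ∈ (A.e i).source, finrank ℂ (Submodule.span ℂ (range (Φ.S i v x))) = r
  pos : 1 ≤ r

theorem exists_rk : ∃ r, Φ.Rk r := by
  classical
  let P : ℕ → Prop := fun r =>
    ∃ i v, ∃ x ∈ (A.e i).source, finrank ℂ (Submodule.span ℂ (range (Φ.S i v x))) = r
  have hb : ∀ i v x, finrank ℂ (Submodule.span ℂ (range (Φ.S i v x))) ≤ Fintype.card (FI n) :=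
    fun i v x => finrank_range_le_card _
  obtain ⟨i, v, x, hx, h0⟩ := Φ.S_ne
  have hle : ∀ i v, ∀ x ∈ (A.e i).source, finrank ℂ (Submodule.span ℂ (range (Φ.S i v x))) ≤
      Nat.findGreatest P (Fintype.card (FI n)) :=
    fun i v x hx => Nat.le_findGreatest (hb i v x) ⟨i, v, x, hx, rfl⟩
  refine ⟨_, hle, Nat.findGreatest_spec (P := P) (hb i v x) ⟨i, v, x, hx, rfl⟩,
    le_trans ?_ (hle i v x hx)⟩
  have := FiniteDimensional.span_of_finite ℂ (finite_range (Φ.S i v x))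
  rw [Nat.one_le_iff_ne_zero, Ne, Submodule.finrank_eq_zero, Submodule.span_eq_bot]
  exact fun h => h0 (funext fun I => h _ ⟨I, rfl⟩)

theorem pl_eqv (r : ℕ) (g : G) {i : A.ι} (v : G) {x : X} (hx : x ∈ (A.e i).source)
    (I : Fin r → FI n) :
    pl r (Φ.S i (v * g⁻¹) x) I = pmc (Φ.ρ g).toLinearIsometry r (pl r (Φ.S i v x) I) := by
  unfold pl
  rw [Plk.pmc_wc]
  exact congrArg _ (funext fun k => Φ.S_eqv g i v x hx _)

theorem norm_pl (r : ℕ) {i : A.ι} (v : G) {x : X} (hx : x ∈ (A.e i).source) :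
    ‖fn (pl r (Φ.S i v x))‖ = ‖fn (pl r (Φ.S i 1 x))‖ := by
  have h := funext (Φ.pl_eqv r v⁻¹ 1 hx)
  rw [inv_inv, one_mul] at h
  rw [show pl r (Φ.S i v x) = _ from h, norm_fn_map]

theorem exists_gm [CompactSpace X] [T2Space X] [Finite A.ι] {r : ℕ} (hr : Φ.Rk r) :
    ∃ Γ : GM D (Fin r → FI n) (Pc H r), ∀ i v x, Γ.b i v x = pl r (Φ.S i v x) := by
  obtain ⟨wt, h1, h2⟩ := exists_wt (A := A) (N := fun i x => ‖fn (pl r (Φ.S i 1 x))‖)
    (fun _ _ => norm_nonneg _) fun i j => ⟨fun x => ∑ I : Fin r → FI n, ∑ J : Fin r → FI n,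
      ‖∏ k, Gam (Jm A i j x)ᵀ (I k) (J k)‖, continuousOn_finsetSum _ fun I _ =>
        continuousOn_finsetSum _ fun J _ =>
          (continuousOn_finsetProd _ fun k _ => contOn_GamJ i j _ _).norm, fun x hx => by
      rw [Φ.S_tr i j 1 x hx, ← Φ.norm_pl r (D.c i j x * 1) hx.2]
      exact norm_pl_mv _ _⟩
  refine ⟨⟨fun i v x => pl r (Φ.S i v x), fun i v I => ?_, fun i v x hx => pl_r1 (hr.le i v x hx),
    fun i j v x hx I => ?_, fun g => ⟨_, fun i v x hx => Φ.pl_eqv r g v hx⟩, ?_, wt, h1,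
    fun i j v x hx => ?_⟩, fun _ _ _ => rfl⟩
  · exact Plk.differentiable_wc.comp_differentiableOn
      (differentiableOn_pi.2 fun k => Φ.S_hol i v (I k))
  · rw [Φ.S_tr i j v x hx, pl_mv]
    exact Submodule.sum_mem _ fun J _ => Submodule.smul_mem _ _ (Submodule.subset_span ⟨J, rfl⟩)
  · obtain ⟨i, v, x, hx, h⟩ := hr.eq
    exact ⟨i, v, x, hx, pl_ne_zero h⟩
  · rw [Φ.norm_pl r v hx.1, Φ.norm_pl r _ hx.2]
    exact h2 i j x hx

/-- the case of a normal subgroup acting trivially on the leaf space -/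
theorem triv (hG : Grp.JN G) (hA : Amen G) {K : Subgroup G} (hK : K.FG) (hv : ¬ Grp.VInd K)
    (hF : Φ.NoFix K) {N : Subgroup G} (hN : N.Normal) (hN0 : N ≠ ⊥) {i : A.ι} {v : G} {x : X}
    (hx : x ∈ (A.e i).source)
    (h : ∀ g ∈ N, ∀ I, Φ.S i (v * g⁻¹) x I ∈ Submodule.span ℂ (range (Φ.S i v x))) :
    Φ.S i v x = 0 := by
  classical
  set T := Submodule.span ℂ (range (Φ.S i v x))
  have : FiniteDimensional ℂ T := FiniteDimensional.span_of_finite ℂ (finite_range _)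
  have hT : ∀ g ∈ N, ∀ y ∈ T, (Φ.ρ g).toLinearEquiv.toLinearMap y ∈ T := by
    intro g hg y hy
    refine (Submodule.span_le (p := T.comap (Φ.ρ g).toLinearEquiv.toLinearMap)).2 ?_ hy
    rintro _ ⟨I, rfl⟩
    have := h g hg I
    rwa [Φ.S_eqv g i v x hx] at this
  have h1 : Grp.FI (N ⊓ K) K := by
    by_contra h1
    obtain ⟨L, hL, hL'⟩ := hG.quot N hN hN0
    exact hv ((Grp.VSm.mono (N := N) (K := ⊤)
      ⟨L, Grp.FI.of_finiteIndex L, 1, Subgroup.commutator_le.2 hL'⟩ le_rfl le_top).vind hK h1)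
  let ρ' : G → End ℂ T := fun g =>
    if hg : g ∈ N then (Φ.ρ g).toLinearEquiv.toLinearMap.restrict (hT g hg) else 1
  have hρ : ∀ g ∈ N, ∀ y : T, (ρ' g y : H) = Φ.ρ g y := fun g hg y => by
    simp only [ρ', dif_pos hg]; rfl
  obtain ⟨K', hK', h2⟩ := Grp.finite_of_not_vind' (K := N ⊓ K) (ρ := ρ')
    ⟨by ext y; rw [hρ 1 N.one_mem]; simp, fun a ha b hb => by
      ext y
      rw [hρ _ (N.mul_mem ha.1 hb.1), End.mul_apply, hρ a ha.1, hρ b hb.1, map_mul]; rfl⟩
    (Grp.amen_mono (Grp.amen_top_iff.2 hA) le_top) (h1.fg hK) fun h3 => hv (h3.of_fi h1)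
  funext I
  refine inner_self_eq_zero.1 (hF K' (hK'.trans h1) _ (fun g hg => ?_) i v x hx I)
  have := hρ g (hK'.le hg).1 ⟨_, Submodule.subset_span ⟨I, rfl⟩⟩
  rw [h2 g hg] at this
  exact this.symm

end Frm

end

end Crest.Agent.X261.Gauss
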