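import Crest.Agent.X261.Gauss.GS
import Crest.Agent.X261.Gauss.Dsc
import Crest.Agent.X261.Plk.E
import Crest.Agent.X261.Plk.Wt
import Crest.Agent.X261.Rn93.Pol
import Crest.Agent.X261.Rn.Main
import Crest.Agent.X261.Grp.IGb

/-!
# Row 261, GAUSS (helper56), file `Main`: the theorem of the package

* `Frm.le_of_shell`, `Frm.le_of_eta` : `p = q + r`;
* `Frm.exists_gm2` : the family of lines given by the section `η^r ∧ τ / e` of `L`;
* `core`, `gauss_of`, `gauss_of_eqv`.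
-/

set_option autoImplicit false
set_option linter.unusedSectionVars false
set_option linter.dupNamespace false

open Set Filter Topology MeasureTheory Module Matrix
open scoped ENNReal InnerProductSpace

namespace Crest.Agent.X261.Gauss

open Crest.Agent.R275.Geo Crest.Agent.R275.Core144 Crest.Agent.R273.UCov_914
open Crest.Agent.R273.Defs_333
open Crest.Agent.R275.OmT75 (dl dj)
open Crest.Agent.R273.Fock_243 (FI Gam eW ep)
open Crest.Agent.R189 (Amen)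
open Crest.Agent.X261.Plk (R1 fn wf snf Pc wc pmc ParV Psi)
open Crest.Agent.X261.Top (Tube Fol Pol dW)
open Crest.Agent.X261.Ans (HA)
open Crest.Agent.X261.Eqv (AE)

noncomputable section

variable {n : ℕ} {X : Type} [TopologicalSpace X] {A : Atl n X} {G : Type} [Group G]
  {D : MonD A G} {q r p : ℕ} {H : Type} [NormedAddCommGroup H] [InnerProductSpace ℂ H]

namespace Frm

variable (Φ : Frm D q H)

include Φ in
theorem one_le : 1 ≤ n := by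
  obtain ⟨i, v, x, hx, h⟩ := Φ.S_ne
  obtain ⟨I, hI⟩ := Function.ne_iff.1 h
  have h1 : I.card = q + 1 := by
    by_contra h1
    exact hI (Φ.deg i v x hx I h1)
  have h2 := I.card_le_univ
  rw [Fintype.card_fin] at h2
  omega

/-- generic points -/
def Gen (r : ℕ) (y : D.cov G) : Prop :=
  ∀ i, D.pr y ∈ (A.e i).source → dW A i (Φ.a i (D.co i y)) (D.pr y) ≠ 0 ∧
    finrank ℂ (Submodule.span ℂ (range (Φ.S i (D.co i y) (D.pr y)))) = r

theorem ae_tau [ConnectedSpace (D.cov G)] : AE volume (HA.of (D.atl G)) fun y =>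
    ∀ i, D.pr y ∈ (A.e i).source → dW A i (Φ.a i (D.co i y)) (D.pr y) ≠ 0 := by
  have h : ∀ i v, ∀ x ∈ (A.e i).source, D.pt i v x ∈
      {y | ∃ i, D.pr y ∈ (A.e i).source ∧ dW A i (Φ.a i (D.co i y)) (D.pr y) = 0} ↔
      dW A i (Φ.a i v) x = 0 := by
    refine fun i v x hx => ⟨fun ⟨j, hj, h0⟩ => ?_, fun h0 => ⟨i, hx, by rwa [D.co_pt v hx]⟩⟩
    rw [D.co_pt' v hx hj, smul_eq_mul, D.pr_pt] at h0
    rw [Plk.Fr.tau_tr Φ i j v ⟨hx, hj⟩, h0, mulVec_zero]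
  have h1 := an_zero D (f := fun i v x => dW A i (Φ.a i v) x) (fun i v I z hz =>
    (Plk.Fr.an_dW Φ i v I hz).differentiableAt.differentiableWithinAt) h
  refine (Eqv.ae_of_cov (h1.cov_of_ne fun h2 => ?_)).mono fun y hy i hi h0 => hy ⟨i, hi, h0⟩
  obtain ⟨i, v, x, hx, h0⟩ := Φ.tau_ne
  exact h0 ((h i v x hx).1 (eq_univ_iff_forall.1 h2 _))

variable {Φ} {Γ : GM D (Fin r → FI n) (Pc H r)}

theorem rk_of_ne (hr : Φ.Rk r) (hΓ : ∀ i v x, Γ.b i v x = pl r (Φ.S i v x)) {y : D.cov G}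
    (h : Γ.bb y ≠ 0) {i : A.ι} (hi : D.pr y ∈ (A.e i).source) :
    finrank ℂ (Submodule.span ℂ (range (Φ.S i (D.co i y) (D.pr y)))) = r := by
  rw [← D.pt_co hi, Ne, Γ.bb_eq_zero hi, hΓ] at h
  obtain ⟨I, hI⟩ := Function.ne_iff.1 h
  exact (span_of_pl (hr.le _ _ _ hi) hI).2

theorem ae_gen [ConnectedSpace (D.cov G)] (hr : Φ.Rk r)
    (hΓ : ∀ i v x, Γ.b i v x = pl r (Φ.S i v x)) : AE volume (HA.of (D.atl G)) (Φ.Gen r) :=
  (Φ.ae_tau.and Γ.ae_ne).mono fun _ hy i hi => ⟨hy.1 i hi, rk_of_ne hr hΓ hy.2 hi⟩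

theorem Gen.deck {y : D.cov G} (h : Φ.Gen r y) (g : G) : Φ.Gen r (g • y) := by
  intro i hi
  rw [D.pr_deck] at hi ⊢
  rw [D.co_deck]
  obtain ⟨h1, h2⟩ := h i hi
  obtain ⟨L, hL, hL'⟩ := Φ.a_eqv g
  obtain ⟨l, hl⟩ := hL' i (D.co i y)
  constructor
  · rw [dW_eq, Plk.Fr.th_lin Φ i hl hi, Plk.wdg_lin]
    exact smul_ne_zero (norm_ne_zero_iff.1 (hL ▸ one_ne_zero)) h1
  · rw [show Φ.S i (D.co i y * g⁻¹) (D.pr y) = (Φ.ρ g).toLinearEquiv ∘ Φ.S i (D.co i y) (D.pr y) from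
      funext (Φ.S_eqv g i _ _ hi), range_comp, ← LinearEquiv.coe_coe, ← Submodule.map_span,
      LinearEquiv.finrank_map_eq, h2]

/-- the characteristic leaves are inside the compact fibres -/
theorem le_of_shell [CompleteSpace H] (hr : Φ.Rk r) (hΓ : ∀ i v x, Γ.b i v x = pl r (Φ.S i v x))
    (𝒯 : Tube (D.atl G) G p) {y : D.cov G} (hy : y ∈ 𝒯.M0) (hg : Φ.Gen r y)
    (h : ∀ᶠ x in 𝓝 y, snf (Γ.bb x) (Γ.bb y) = 0 → 𝒯.π y x = 0) : p ≤ q + r := by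
  obtain ⟨i, hi⟩ := A.cover (D.pr y)
  have hz := (A.e i).map_source hi
  have ht := (A.e i).open_target.mem_nhds hz
  obtain ⟨h1, h2⟩ := hg i hi
  have hq : y ∈ ((D.atl G).e (i, D.co i y)).source := ⟨hi, rfl⟩
  have hd : DifferentiableAt ℂ (fun z => 𝒯.π y (D.pt i (D.co i y) ((A.e i).symm z)))
      (A.e i (D.pr y)) := (𝒯.π_hol y hy (i, D.co i y)).differentiableAt
    ((isOpen_ti (𝒯.T_opn y hy)).mem_nhds (Rn93.mem_ti hq (𝒯.T_mem y hy)))
  have hd' : ∀ k, DifferentiableAt ℂ (fun z => 𝒯.π y (D.pt i (D.co i y) ((A.e i).symm z)) k)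
      (A.e i (D.pr y)) := fun k =>
    (EuclideanSpace.proj k : Cn p →L[ℂ] ℂ).differentiableAt.comp _ hd
  have hp : (Top.wdg fun k b => dj b
      (fun z => 𝒯.π y (D.pt i (D.co i y) ((A.e i).symm z)) k) (A.e i (D.pr y))) ≠ 0 := by
    have := Rn93.dW_ne 𝒯 hy (𝒯.T_mem y hy) hq
    unfold dW dl at this
    exact this
  have hcl : ∀ᶠ z in 𝓝 (A.e i (D.pr y)), ∑ b, Plk.mv (eW (ep b))
      (fun I => dj b (fun w => Φ.S i (D.co i y) ((A.e i).symm w) I) z) = 0 := by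
    filter_upwards [ht] with z hz
    have := Φ.closed i (D.co i y) _ ((A.e i).map_target hz)
    unfold dl at this
    rwa [(A.e i).right_inv hz] at this
  have hf : ∀ᶠ z in 𝓝 (A.e i (D.pr y)),
      Submodule.span ℂ (range (Φ.S i (D.co i y) ((A.e i).symm z))) =
        Submodule.span ℂ (range (Φ.S i (D.co i y) ((A.e i).symm (A.e i (D.pr y))))) →
      ∀ k, 𝒯.π y (D.pt i (D.co i y) ((A.e i).symm z)) k =
        𝒯.π y (D.pt i (D.co i y) ((A.e i).symm (A.e i (D.pr y)))) k := by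
    have hc : Tendsto (fun z => D.pt i (D.co i y) ((A.e i).symm z)) (𝓝 (A.e i (D.pr y))) (𝓝 y) :=
      ((D.atl G).e (i, D.co i y)).tendsto_symm hq
    filter_upwards [hc.eventually h, ht] with z h3 h4 h5 k
    rw [(A.e i).left_inv hi] at h5 ⊢
    have h6 := Γ.snf_pt (v := D.co i y) (v' := D.co i y) ((A.e i).map_target h4) hi
    rw [D.pt_co hi, hΓ, hΓ, snf_pl_of_le h2 fun I => h5 ▸ Submodule.subset_span ⟨I, rfl⟩] at h6
    rw [D.pt_co hi, 𝒯.π_self y hy, h3 h6]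
  exact Plk.le_of_fib (th := fun z => dV A i (Φ.a i (D.co i y)) ((A.e i).symm z))
    (S := fun z => Φ.S i (D.co i y) ((A.e i).symm z)) (z := A.e i (D.pr y))
    (f := fun k z => 𝒯.π y (D.pt i (D.co i y) ((A.e i).symm z)) k)
    (mem_of_superset ht fun z hz k j => (Plk.Fr.an_th Φ i _ k j hz).differentiableAt)
    (mem_of_superset ht fun z hz I => Plk.Fr.diff_S Φ i _ I hz)
    (mem_of_superset ht fun z hz => Plk.Fr.hor Φ i _ ((A.e i).map_target hz)) hcl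
    (mem_of_superset ht fun z hz => hr.le _ _ _ ((A.e i).map_target hz))
    (by rwa [(A.e i).left_inv hi]) (by rwa [(A.e i).left_inv hi]) hd' hp hf

theorem le_of_eta {𝒯 : Tube (D.atl G) G p} (hE : Φ.Eta 𝒯)
    (hg : AE volume (HA.of (D.atl G)) (Φ.Gen r)) : q + r ≤ p := by
  obtain ⟨O, hO, hne, h⟩ := hE
  obtain ⟨y₀, h1, h2⟩ := (Ans.Brg.tube_dense 𝒯).exists_mem_open hO hne
  obtain ⟨y, ⟨h3, h4⟩, h5⟩ := hg.exists_mem ((𝒯.opn.inter hO).mem_nhds ⟨h1, h2⟩)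
  obtain ⟨i, hi⟩ := A.cover (D.pr y)
  exact (Plk.Fr.hor Φ i _ hi).le_of_ker (h5 i hi).1 (h5 i hi).2
    (π := dV (D.atl G) (i, D.co i y) (𝒯.π y) y)
    fun w hw => h y h3 y (𝒯.T_mem y h3) h4 i hi w hw

theorem par_of_eta {F : Fol D p} (hE : Φ.Eta F.T) (hp : p = q + r) :
    ∃ i v, ∃ x ∈ (A.e i).source, ∀ᶠ y in 𝓝 x,
      ParV (F.e i y) (Plk.Fr.sp Φ (wc H r).toAlternatingMap i v y) := by
  obtain ⟨O, hO, hne, h⟩ := hE
  obtain ⟨y₀, h1, h2⟩ := (Ans.Brg.tube_dense F.T).exists_mem_open hO hne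
  obtain ⟨i, hi⟩ := A.cover (D.pr y₀)
  refine ⟨i, D.co i y₀, D.pr y₀, hi, ?_⟩
  have hc : Tendsto (D.pt i (D.co i y₀)) (𝓝 (D.pr y₀)) (𝓝 y₀) := by
    have := (D.continuousOn_pt i (D.co i y₀)).continuousAt ((A.e i).open_source.mem_nhds hi)
    rwa [ContinuousAt, D.pt_co hi] at this
  filter_upwards [hc.eventually (hO.mem_nhds h2), hc.eventually
    ((F.T.T_opn y₀ h1).mem_nhds (F.T.T_mem y₀ h1)), (A.e i).open_source.mem_nhds hi]
    with x h3 h4 h5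
  have h6 := h y₀ h1 _ h4 h3 i h5
  unfold Frm.Ker at h6
  rw [D.co_pt _ h5, D.pr_pt] at h6
  obtain ⟨Ψ, hΨ⟩ := (Plk.Fr.hor Φ i (D.co i y₀) h5).par (wc H r).toAlternatingMap hp
    (π := dV (D.atl G) (i, D.co i y₀) (F.T.π y₀) (D.pt i (D.co i y₀) x)) h6
  obtain ⟨c, -, hc⟩ := F.gen y₀ h1 (i, D.co i y₀) _ h4 (D.pt_mem_sheet _ h5)
  intro I I'
  change F.e i x = c • Top.wdg
    (dV (D.atl G) (i, D.co i y₀) (F.T.π y₀) (D.pt i (D.co i y₀) x)) at hc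
  unfold Plk.Fr.sp
  rw [hΨ, hΨ, hc]
  simp only [Pi.smul_apply, smul_eq_mul, smul_smul]
  congr 1
  ring

variable {e : A.ι → X → FI n → ℂ} {Ψ : A.ι → G → X → Pc H r}

theorem psi_eq (h : Psi Φ (wc H r) e Ψ) {y : D.cov G} (hy : Φ.Gen r y) {i : A.ι}
    (hi : D.pr y ∈ (A.e i).source) : ∃ (β : Fin r → H) (c : ℂ), c ≠ 0 ∧ wc H r β ≠ 0 ∧
      Submodule.span ℂ (range β) = Submodule.span ℂ (range (Φ.S i (D.co i y) (D.pr y))) ∧
      Ψ i (D.co i y) (D.pr y) = c • wc H r β := by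
  obtain ⟨h1, h2⟩ := hy i hi
  obtain ⟨β, hβ, hs⟩ := Plk.exists_basis h2
  obtain ⟨c, hc, h3⟩ := (Plk.Fr.hor Φ i _ hi).rank_one (wc H r).toAlternatingMap h1 hβ hs
  obtain ⟨I, hI⟩ := Function.ne_iff.1 hc
  have h4 : e i (D.pr y) I • Ψ i (D.co i y) (D.pr y) = c I • wc H r β :=
    (h.eq i _ _ hi h1 I).symm.trans (h3 I)
  have h5 := Plk.wc_ne_zero_iff.2 hβ
  have h6 : e i (D.pr y) I ≠ 0 := fun h0 => smul_ne_zero hI h5 (by rw [← h4, h0, zero_smul])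
  exact ⟨β, (e i (D.pr y) I)⁻¹ * c I, mul_ne_zero (inv_ne_zero h6) hI, h5, hs, by
    rw [mul_smul, ← h4, inv_smul_smul₀ h6]⟩

theorem norm_fn_unit {W : Type*} [NormedAddCommGroup W] [InnerProductSpace ℂ W] (a : W) :
    ‖fn fun _ : Unit => a‖ ^ 2 = ‖a‖ ^ 2 := by
  rw [Plk.norm_fn_sq]; simp

theorem cont_w {L : LB A} (h : HM L) {i : A.ι} {x : X} (hx : x ∈ (A.e i).source) :
    ContinuousAt (h.w i) x :=
  Plk.Fr.cont_of_an hx ((h.sm i).continuousOn.continuousAt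
    ((A.e i).open_target.mem_nhds ((A.e i).map_source hx)))

/-- the second family of lines -/
theorem exists_gm2 [CompactSpace X] [T2Space X] [Finite A.ι] [ConnectedSpace (D.cov G)]
    {F : Fol D p} (h : Psi Φ (wc H r) F.e Ψ) (hg : AE volume (HA.of (D.atl G)) (Φ.Gen r))
    (m : HM F.L) : ∃ (Γ : GM D Unit (Pc H r)) (ε : ℂ), ε ≠ 0 ∧
      (∀ i v x, Γ.b i v x = fun _ => ε • Ψ i v x) ∧ (∀ i x, Γ.wt i x = -Real.log (m.w i x)) ∧
      ∀ y, Γ.nr y ≤ 1 := by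
  have htr : ∀ i j v, ∀ x ∈ (A.e i).source ∩ (A.e j).source,
      ‖Ψ i v x‖ ^ 2 * m.w i x = ‖Ψ j (D.c i j x * v) x‖ ^ 2 * m.w j x := fun i j v x hx => by
    rw [h.tr F.tom F.cop i j v hx, m.tr i j x hx, norm_smul]
    ring
  have hinv : ∀ i v, ∀ x ∈ (A.e i).source, ‖Ψ i v x‖ = ‖Ψ i 1 x‖ := fun i v x hx => by
    obtain ⟨c, hc, h1⟩ := h.eqv F.cop v⁻¹
    have := h1 i 1 x hx
    rw [inv_inv, one_mul] at this
    rw [this, norm_smul, hc, one_mul, LinearIsometry.norm_map]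
  obtain ⟨K, hK1, hK2, hK3⟩ := MonD.exists_shrink A
  have hb : ∀ i, ∃ M : ℝ, ∀ x ∈ K i, ‖Ψ i 1 x‖ ^ 2 * m.w i x ≤ M := fun i => by
    obtain ⟨M, hM⟩ := (hK1 i).bddAbove_image (f := fun x => ‖Ψ i 1 x‖ ^ 2 * m.w i x) fun x hx =>
      (((h.cont i 1 (hK2 i hx)).norm.pow 2).mul (cont_w m (hK2 i hx))).continuousWithinAt
    exact ⟨M, fun x hx => hM ⟨x, hx, rfl⟩⟩
  choose M hM using hb
  obtain ⟨M', hM'⟩ := (finite_range M).bddAbove
  have h1 : (1 : ℝ) ≤ max M' 1 := le_max_right _ _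
  set ε : ℂ := (((max M' 1)⁻¹ : ℝ) : ℂ) with hε
  have hεn : ‖ε‖ = (max M' 1)⁻¹ := by
    rw [hε, Complex.norm_real, Real.norm_of_nonneg (by positivity)]
  have hε0 : ε ≠ 0 := norm_ne_zero_iff.1 (by rw [hεn]; positivity)
  have hw : ∀ i, ∀ x ∈ (A.e i).source, Real.exp (- -Real.log (m.w i x)) = m.w i x :=
    fun i x hx => by rw [neg_neg, Real.exp_log (m.pos i x hx)]
  refine ⟨⟨fun i v x _ => ε • Ψ i v x, fun i v _ => (h.hol i v).differentiableOn.const_smul ε,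
    fun i v x _ => ⟨_, fun _ => ⟨ε, rfl⟩⟩, fun i j v x hx _ => ?_, fun g => ?_, ?_,
    fun i x => -Real.log (m.w i x), fun i x hx => ?_, fun i j v x hx => ?_⟩, ε, hε0,
    fun _ _ _ => rfl, fun _ _ => rfl, fun y => ?_⟩
  · rw [h.tr F.tom F.cop i j v hx, smul_comm]
    exact Submodule.smul_mem _ _ (Submodule.subset_span ⟨(), rfl⟩)
  · obtain ⟨c, hc, h2⟩ := h.eqv F.cop g
    refine ⟨⟨c • (pmc (Φ.ρ g).toLinearIsometry r).toLinearMap, fun a => ?_⟩, fun i v x hx _ => ?_⟩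
    · change ‖c • pmc (Φ.ρ g).toLinearIsometry r a‖ = _
      rw [norm_smul, hc, one_mul, LinearIsometry.norm_map]
    · change _ = c • pmc (Φ.ρ g).toLinearIsometry r _
      rw [h2 i v x hx, map_smul, smul_comm]
  · obtain ⟨y, -, hy⟩ := hg.exists_mem (x := Classical.arbitrary _) univ_mem
    obtain ⟨i, hi⟩ := A.cover (D.pr y)
    obtain ⟨β, c, hc, hβ, -, h2⟩ := psi_eq h hy hi
    refine ⟨i, D.co i y, D.pr y, hi, fun h0 => ?_⟩
    have := congrFun h0 ()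
    rw [h2] at this
    exact smul_ne_zero hε0 (smul_ne_zero hc hβ) this
  · have h2 := ((cont_w m hx).log (m.pos i x hx).ne').neg.abs
    exact ⟨_, (h2.eventually (gt_mem_nhds (lt_add_one _))).mono fun y hy => hy.le⟩
  · rw [norm_fn_unit, norm_fn_unit, hw i x hx.1, hw j x hx.2, norm_smul, norm_smul, mul_pow, mul_pow,
      mul_assoc, mul_assoc, htr i j v x hx]
  · obtain ⟨i, hi⟩ := mem_iUnion.1 (eq_univ_iff_forall.1 hK3 (D.pr y))
    rw [← D.pt_co (hK2 i hi), GM.nr_pt _ (hK2 i hi)]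
    change ‖fn fun _ : Unit => ε • Ψ i (D.co i y) (D.pr y)‖ ^ 2 *
      Real.exp (- -Real.log (m.w i (D.pr y))) ≤ 1
    rw [norm_fn_unit, hw i _ (hK2 i hi), norm_smul, mul_pow, mul_assoc, hinv i _ _ (hK2 i hi), hεn]
    have h2 : ‖Ψ i 1 (D.pr y)‖ ^ 2 * m.w i (D.pr y) ≤ max M' 1 :=
      (hM i _ hi).trans ((hM' ⟨i, rfl⟩).trans (le_max_left _ _))
    rw [inv_pow, inv_mul_le_iff₀ (by positivity)]
    nlinarith

theorem Gen.ne (hr : Φ.Rk r) {y : D.cov G} (hy : Φ.Gen r y) {i : A.ι}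
    (hi : D.pr y ∈ (A.e i).source) : Φ.S i (D.co i y) (D.pr y) ≠ 0 := fun h0 => by
  have h1 := (hy i hi).2
  rw [h0, Submodule.span_eq_bot.2 (by rintro _ ⟨I, rfl⟩; rfl), finrank_bot] at h1
  exact hr.pos.trans_eq h1.symm |> Nat.not_succ_le_zero 0

end Frm

/-- the theorem on one cover -/
theorem core (hR : Rn.RelnBStmt) [T2Space X] [CompactSpace X] [Finite A.ι]
    [ConnectedSpace (D.cov G)] [CompleteSpace H] (hG : Grp.JN G) (hA : Amen G) {K : Subgroup G}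
    [Infinite K] (hK : K.FG) (hv : ¬ Grp.VInd K) (Φ : Frm D q H) (hF : Φ.NoFix K) (F : Fol D p)
    (hE : Φ.Eta F.T) (m : HM F.L) : Nonempty (Pol F m) := by
  have : Countable G := Cov.A.countable D
  have : Countable (D.atl G).ι := inferInstanceAs (Countable (A.ι × G))
  obtain ⟨r, hr⟩ := Φ.exists_rk
  obtain ⟨Γ, hΓ⟩ := Φ.exists_gm hr
  have hg := Frm.ae_gen hr hΓ
  obtain ⟨y₀⟩ : Nonempty (D.cov G) := inferInstance
  have hle : p ≤ q + r := by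
    rcases hR n Φ.one_le _ (D.atl G) G p F.T Γ.tp with h | ⟨V, _, _, I, -⟩ | h
    · obtain ⟨N, h1, h2, h3⟩ := Γ.of_tr h
      obtain ⟨y, -, ⟨-, h4⟩, h5⟩ := (h3.and hg).exists_mem (x := y₀) univ_mem
      obtain ⟨i, hi⟩ := A.cover (D.pr y)
      refine absurd (Φ.triv hG hA hK hv hF h1 h2 hi fun g hg I => ?_) (h5.ne hr hi)
      have h6 := h4 g hg
      have h7 := (h5.deck g i hi).2
      rw [D.co_deck, D.pr_deck] at h7
      rw [← D.pt_co hi, D.deck_pt, Γ.snf_pt hi hi, hΓ, hΓ] at h6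
      rw [span_eq_of_snf (h5 i hi).2 h7 h6]
      exact Submodule.subset_span ⟨I, rfl⟩
    · exact absurd (hG.vind_of_ig_amen hA I hK) hv
    · obtain ⟨y, -, ⟨h1, -, h2⟩, h3⟩ := ((Γ.of_shell h).and hg).exists_mem (x := y₀) univ_mem
      exact Frm.le_of_shell hr hΓ F.T h1 h3 h2
  obtain ⟨Ψ, hΨ⟩ := Plk.exists_psi Φ (wc H r) F.tom F.cop
    (Frm.par_of_eta hE (le_antisymm hle (Frm.le_of_eta hE hg)))
  obtain ⟨Γ', ε, hε, hb, hw, h0⟩ := Frm.exists_gm2 hΨ hg m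
  rcases hR n Φ.one_le _ (D.atl G) G p F.T Γ'.tp with h | ⟨V, _, _, I, -⟩ | h
  · obtain ⟨N, h1, h2, h3⟩ := Γ'.of_tr h
    obtain ⟨y, -, ⟨-, h4⟩, h5⟩ := (h3.and hg).exists_mem (x := y₀) univ_mem
    obtain ⟨i, hi⟩ := A.cover (D.pr y)
    refine absurd (Φ.triv hG hA hK hv hF h1 h2 hi fun g hg I => ?_) (h5.ne hr hi)
    have h6 := h4 g hg
    obtain ⟨β, c, hc, hβ, hs, he⟩ := Frm.psi_eq hΨ h5 hi
    obtain ⟨β', c', hc', hβ', hs', he'⟩ := Frm.psi_eq hΨ (h5.deck g) (i := i) hi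
    rw [D.co_deck, D.pr_deck] at hs' he'
    rw [← D.pt_co hi, D.deck_pt, Γ'.snf_pt hi hi, hb, hb, he, he',
      Plk.snf_eq_sn (i := ()) (j := ()) ⟨_, fun _ => ⟨1, (one_smul _ _).symm⟩⟩
        ⟨_, fun _ => ⟨1, (one_smul _ _).symm⟩⟩ (smul_ne_zero hε (smul_ne_zero hc hβ))
        (smul_ne_zero hε (smul_ne_zero hc' hβ')), Plk.sn_smul_left hε, Plk.sn_smul_left hc,
      Plk.sn_smul_right hε, Plk.sn_smul_right hc', Plk.sn_eq_zero_iff hβ hβ'] at h6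
    obtain ⟨d, hd⟩ := h6
    rw [← hs, Plk.span_eq_of_wc hβ hd, hs']
    exact Submodule.subset_span ⟨I, rfl⟩
  · exact absurd (hG.vind_of_ig_amen hA I hK) hv
  · refine Rn93.pol_of_shell F m Γ'.tp (funext fun q => funext fun z => hw _ _) (fun y => ?_) h
    change Lg (Γ'.nr y) ≤ ((0 : ℝ) : EReal)
    rw [Lg_le, Real.exp_zero]
    exact h0 y

theorem gauss_of (hR : Rn.RelnBStmt) : GaussStmt := by
  intro n X _ _ _ A _ Γ _ D _ N _ hG hA M _ _ hK hv q H _ _ _ Φ U hF p F m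
  have := Cov.A.connected_push D (QuotientGroup.mk' N) (QuotientGroup.mk'_surjective N)
  obtain ⟨Φ', h1, h2⟩ := Dsc.desc U hF
  exact core hR hG hA hK hv Φ' h1 F (h2 p F.T) m

/-- **GAUSS** -/
theorem gauss_of_eqv (hQ : Eqv.EqvStmt) : GaussStmt := gauss_of (Rn.relnB_of hQ)

end

end Crest.Agent.X261.Gauss
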