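import Crest.Agent.R266.HolFlow
import Crest.Agent.R266.SCV
import Crest.Agent.R276.SubP_358

/-!
# X261 / Gauss / NP, part a (helper28): straightening, and the estimate in a product

* `phi_int`       : first integrals of the radial flow;
* `exists_str`    : if `da (w z s, s) = 0` for a holomorphic `w`, there is a local biholomorphism `e`
  of `Y × S` with `(e u).2 = u.2` and `a (e u) = a (u.1, z₀.2)` (no integrability condition);
* `submean`       : sub-mean value inequality for maps to a normed space;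
* `jac`, `core`   : `∫_K |g|² ≤ C vol (a K)` for all compact `K` gives `|g| ≤ C' |jac a|`.
-/

set_option autoImplicit false

open Set Filter Topology Metric MeasureTheory
open scoped ENNReal

noncomputable section

namespace Crest.Agent.X261.Gauss.NP

open Crest.Agent.R266 Crest.Agent.Lib.ODEFlow ContinuousLinearMap

section Flow

variable {E F Z : Type} [NormedAddCommGroup E] [NormedSpace ℂ E] [CompleteSpace E]
  [NormedAddCommGroup F] [NormedSpace ℂ F] [CompleteSpace F]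
  [NormedAddCommGroup Z] [NormedSpace ℂ Z] {W : E → F →L[ℂ] E} {U : Set E}

/-- first integrals of the radial flow -/
theorem phi_int (hU : IsOpen U) (hW : AnalyticOnNhd ℂ W U) {f : E → Z} {s : F} {y : E} {c : Z}
    (hf : ∀ x ∈ U, DifferentiableAt ℂ f x ∧ fderiv ℂ f x (W x s) = c)
    (h : (s, y) ∈ domW W U) : f (PhiW W U (s, y)) = f y + c := by
  have h1 : ContDiffOn ℝ 1 (VW W) (U ×ˢ (univ : Set F)) :=
    contDiffOn_real_of_analytic (analyticOnNhd_VW hW) (n := 1)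
  have hO := hU.prod (isOpen_univ (X := F))
  have hd : ∀ t ∈ Icc (0 : ℝ) 1, HasDerivAt
      (fun t : ℝ => f (flow (VW W) (U ×ˢ (univ : Set F)) ((y, s), t)).1 - t • c) 0 t := by
    intro t ht
    have hm : ((y, s), t) ∈ dom (VW W) (U ×ˢ (univ : Set F)) :=
      mem_dom_of_uIcc h (by rwa [uIcc_of_le zero_le_one])
    have h2 := (hasDerivAt_flow hO h1 hm).fst
    obtain ⟨h3, h4⟩ := hf _ (flow_mem hO h1 hm).1
    have h5 := (h3.hasFDerivAt.restrictScalars ℝ).comp_hasDerivAt t h2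
    have h6 := h5.sub ((hasDerivAt_id t).smul_const c)
    refine h6.congr_deriv ?_
    change fderiv ℂ f _ (W _ (flow (VW W) (U ×ˢ (univ : Set F)) ((y, s), t)).2) - _ = _
    rw [flow_VW_snd hU hW ht.1 hm, h4, one_smul, sub_self]
  have h2 := constant_of_has_deriv_right_zero (a := 0) (b := 1)
    (fun t ht => (hd t ht).continuousAt.continuousWithinAt)
    (fun t ht => (hd t ⟨ht.1, ht.2.le⟩).hasDerivWithinAt) 1 ⟨zero_le_one, le_rfl⟩
  rw [flow_zero hO h1 (mem_of_mem_dom h), one_smul, zero_smul, sub_zero, sub_eq_iff_eq_add] at h2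
  exact h2

end Flow

variable {Y S Z H : Type} [NormedAddCommGroup Y] [NormedSpace ℂ Y] [FiniteDimensional ℂ Y]
  [NormedAddCommGroup S] [NormedSpace ℂ S] [FiniteDimensional ℂ S]
  [NormedAddCommGroup Z] [NormedSpace ℂ Z] [NormedAddCommGroup H] [NormedSpace ℂ H]

/-- straightening of the kernel of `da` -/
theorem exists_str {a : Y × S → Z} {w : Y × S → S →L[ℂ] Y} {z₀ : Y × S}
    (ha : ∀ᶠ z in 𝓝 z₀, DifferentiableAt ℂ a z) (hw : AnalyticAt ℂ w z₀)
    (h0 : ∀ᶠ z in 𝓝 z₀, ∀ s, fderiv ℂ a z (w z s, s) = 0) :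
    ∃ e : OpenPartialHomeomorph (Y × S) (Y × S), z₀ ∈ e.source ∧ e z₀ = z₀ ∧
      AnalyticOnNhd ℂ e e.source ∧ AnalyticOnNhd ℂ e.symm e.target ∧
      Function.Injective (fderiv ℂ e z₀) ∧
      ∀ u ∈ e.source, (e u).2 = u.2 ∧ a (e u) = a (u.1, z₀.2) := by
  have : CompleteSpace Y := FiniteDimensional.complete ℂ Y
  have : CompleteSpace S := FiniteDimensional.complete ℂ S
  obtain ⟨U, hU1, hU, hz⟩ := _root_.eventually_nhds_iff.1 ((ha.and h0).and hw.eventually_analyticAt)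
  let W : Y × S → S →L[ℂ] Y × S := fun z => compL ℂ S Y (Y × S) (inl ℂ Y S) (w z) + inr ℂ Y S
  have hWa : ∀ z s, W z s = (w z s, s) := fun z s => by simp [W]
  have hW : AnalyticOnNhd ℂ W U := fun z hz =>
    (((compL ℂ S Y (Y × S) (inl ℂ Y S)).analyticAt _).comp (hU1 z hz).2).add analyticAt_const
  let ι : Y × S → S × (Y × S) := fun u => (u.2 - z₀.2, (u.1, z₀.2))
  have hι : ∀ u, AnalyticAt ℂ ι u := fun u =>
    (analyticAt_snd.sub analyticAt_const).prod (analyticAt_fst.prod analyticAt_const)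
  have hι0 : ι z₀ = (0, z₀) := by simp [ι]
  let Ψ : Y × S → Y × S := fun u => PhiW W U (ι u)
  have hdom : ∀ᶠ u in 𝓝 z₀, ι u ∈ domW W U := (hι z₀).continuousAt.eventually
    ((isOpen_domW hU hW).mem_nhds (by rw [hι0]; exact (zero_mem_domW hU hW hz).1))
  have hΨ : AnalyticAt ℂ Ψ z₀ := AnalyticAt.comp (g := PhiW W U) (f := ι)
    (SCV.analyticOnNhd_of_differentiableOn (isOpen_domW hU hW) (differentiableOn_PhiW hU hW) _
      hdom.self_of_nhds) (hι z₀)
  have h2 : ∀ u, ι u ∈ domW W U → (Ψ u).2 = u.2 ∧ a (Ψ u) = a (u.1, z₀.2) := fun u hu => by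
    constructor
    · have h3 := phi_int hU hW (f := Prod.snd) (c := u.2 - z₀.2)
        (fun x _ => ⟨differentiableAt_snd, by rw [fderiv_snd, hWa]; rfl⟩) hu
      rw [add_sub_cancel] at h3
      exact h3
    · have h3 := phi_int hU hW (f := a) (c := 0)
        (fun x hx => ⟨(hU1 x hx).1.1, by rw [hWa]; exact (hU1 x hx).1.2 _⟩) hu
      rw [add_zero] at h3
      exact h3
  have h3 : ∀ y, (y, z₀.2) ∈ U → Ψ (y, z₀.2) = (y, z₀.2) := fun y hy => by
    have h4 : ι (y, z₀.2) = (0, (y, z₀.2)) := by simp [ι]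
    change PhiW W U (ι _) = _
    rw [h4]
    exact (zero_mem_domW hU hW hy).2
  have hT := hΨ.differentiableAt.hasFDerivAt
  have h4 : (snd ℂ Y S).comp (fderiv ℂ Ψ z₀) = snd ℂ Y S :=
    hT.snd.unique (hasFDerivAt_snd.congr_of_eventuallyEq (hdom.mono fun u hu => (h2 u hu).1))
  have h5 : (fderiv ℂ Ψ z₀).comp (inl ℂ Y S) = inl ℂ Y S := by
    have h6 : HasFDerivAt (fun y : Y => (y, z₀.2)) (inl ℂ Y S) z₀.1 := hasFDerivAt_prodMk_left _ _
    refine (HasFDerivAt.comp (f := fun y : Y => (y, z₀.2)) z₀.1 hT h6).unique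
      (h6.congr_of_eventuallyEq ?_)
    exact (h6.continuousAt.eventually (hU.mem_nhds hz)).mono fun y hy => h3 y hy
  have hi : Function.Injective (fderiv ℂ Ψ z₀) := by
    refine (injective_iff_map_eq_zero _).2 fun u hu => ?_
    have h6 : u.2 = 0 := by
      have h7 := congrArg (fun L : Y × S →L[ℂ] S => L u) h4
      simpa [hu] using h7.symm
    have h7 := congrArg (fun L : Y →L[ℂ] Y × S => L u.1) h5
    have h8 : u = (u.1, 0) := Prod.ext rfl h6
    simp only [comp_apply, inl_apply, ← h8, hu] at h7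
    exact h7.symm
  let T : (Y × S) ≃L[ℂ] Y × S :=
    (LinearEquiv.ofInjectiveEndo (fderiv ℂ Ψ z₀).toLinearMap hi).toContinuousLinearEquiv
  obtain ⟨e, he1, he2, he3, he4, he5⟩ := SCV.exists_analytic_openPartialHomeomorph hΨ T hT hdom
  have he : (e : Y × S → Y × S) = Ψ := funext he3
  refine ⟨e, he1, ?_, he4, he5, by rw [he]; exact hi, fun u hu => ?_⟩
  · rw [he]
    exact h3 z₀.1 hz
  · rw [he]
    exact h2 u (he2 hu)

/-- sub-mean value inequality on the translate of a balanced open set -/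
theorem submean {E : Type} [NormedAddCommGroup E] [NormedSpace ℂ E] [FiniteDimensional ℂ E]
    [MeasurableSpace E] [BorelSpace E] (μ : Measure E) [μ.IsAddHaarMeasure] {g : E → H} {u : E}
    {B B' : Set E} (hB : IsOpen B) (hb : Balanced ℂ B) (hB' : ∀ v, u + v ∈ B' ↔ v ∈ B)
    (hg : ∀ v ∈ B', DifferentiableAt ℂ g v) :
    ‖g u‖ₑ ^ 2 * μ B' ≤ ∫⁻ v in B', ‖g v‖ₑ ^ 2 ∂μ := by
  obtain ⟨l, hl1, hl2⟩ := exists_dual_vector'' ℂ (g u)
  have hpre : (fun v => u + v) ⁻¹' B' = B := Set.ext hB'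
  have h1 := R276.SubP_358.rpow_mul_measure_le μ (g := fun v => l (g (u + v))) hB hb
    (fun v hv => (l.differentiableAt.comp v ((hg _ ((hB' v).2 hv)).comp v
      (differentiableAt_id.const_add u))).differentiableWithinAt) two_pos
  have h2 : μ B' = μ B := by rw [← hpre, measure_preimage_add]
  have h3 : ∫⁻ v in B, ‖g (u + v)‖ₑ ^ 2 ∂μ = ∫⁻ v in B', ‖g v‖ₑ ^ 2 ∂μ := by
    rw [← hpre]
    exact (measurePreserving_add_left μ u).setLIntegral_comp_preimage_emb
      (measurableEmbedding_addLeft u) (fun v => ‖g v‖ₑ ^ 2) B'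
  simp only [ENNReal.rpow_two, add_zero, hl2] at h1
  rw [h2, ← h3]
  refine le_trans (le_of_eq ?_) (h1.trans (lintegral_mono fun v => ?_))
  · congr 2
    rw [← ofReal_norm, ← ofReal_norm]
    simp
  · refine pow_le_pow_left' ?_ 2
    rw [← ofReal_norm, ← ofReal_norm]
    exact ENNReal.ofReal_le_ofReal
      ((l.le_opNorm _).trans (mul_le_of_le_one_left (norm_nonneg _) hl1))

theorem det_real {E : Type} [NormedAddCommGroup E] [NormedSpace ℂ E] [FiniteDimensional ℂ E]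
    (L : E →L[ℂ] E) : (L.restrictScalars ℝ).det = ‖L.det‖ ^ 2 := by
  rw [← Complex.normSq_eq_norm_sq, ← Algebra.norm_complex_apply, ContinuousLinearMap.det,
    ContinuousLinearMap.det, ← LinearMap.det_restrictScalars]
  rfl

/-- the Jacobian of `a` in the direction of the first factor -/
def jac (a : Y × S → Y) (z : Y × S) : ℂ := ((fderiv ℂ a z).comp (inl ℂ Y S)).det

omit [FiniteDimensional ℂ S] in
/-- the volume of the image of a small ball in a slice -/
theorem vol_slice [MeasurableSpace Y] [BorelSpace Y] (ν : Measure Y) [ν.IsAddHaarMeasure]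
    [CompleteSpace S] {a : Y × S → Y} {y : Y} {s : S} (ha : AnalyticAt ℂ a (y, s)) {ε : ℝ}
    (hε : 0 < ε) : ∀ᶠ r in 𝓝[>] (0 : ℝ), ν ((fun x => a (x, s)) '' closedBall y r) ≤
      ENNReal.ofReal (‖jac a (y, s)‖ ^ 2 + ε) * ν (ball y r) := by
  have : CompleteSpace Y := FiniteDimensional.complete ℂ Y
  have : FiniteDimensional ℝ Y := FiniteDimensional.complexToReal Y
  have hc : ContinuousAt (fun x : Y => ((x, s) : Y × S)) y := by fun_prop
  have h1 : ContinuousAt (fun x => ‖jac a (x, s)‖ ^ 2) y := by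
    refine (ContinuousAt.norm ?_).pow 2
    refine continuous_det.continuousAt.comp (ContinuousAt.clm_comp ?_ continuousAt_const)
    exact ContinuousAt.comp (f := fun x : Y => ((x, s) : Y × S)) ha.fderiv.continuousAt hc
  have h2 := (h1.eventually_lt continuousAt_const (lt_add_of_pos_right _ hε)).and
    (hc.eventually ha.eventually_analyticAt)
  obtain ⟨ρ, hρ, h3⟩ := nhds_basis_closedBall.eventually_iff.1 h2
  filter_upwards [Ioo_mem_nhdsGT hρ] with r hr
  have h4 : closedBall y r ⊆ closedBall y ρ := closedBall_subset_closedBall hr.2.le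
  refine (addHaar_image_le_lintegral_abs_det_fderiv ν measurableSet_closedBall
    (f' := fun x => ((fderiv ℂ a (x, s)).comp (inl ℂ Y S)).restrictScalars ℝ)
    fun x hx => ?_).trans ?_
  · exact ((HasFDerivAt.comp (f := fun x : Y => ((x, s) : Y × S)) x
      (h3 (h4 hx)).2.differentiableAt.hasFDerivAt
      (hasFDerivAt_prodMk_left x s)).restrictScalars ℝ).hasFDerivWithinAt
  · refine (setLIntegral_mono' measurableSet_closedBall
      (g := fun _ => ENNReal.ofReal (‖jac a (y, s)‖ ^ 2 + ε)) fun x hx => ?_).trans ?_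
    · rw [det_real, abs_of_nonneg (by positivity)]
      exact ENNReal.ofReal_le_ofReal (h3 (h4 hx)).1.le
    · rw [setLIntegral_const, Measure.addHaar_closedBall ν y hr.1.le,
        Measure.addHaar_ball_of_pos ν y hr.1]

/-- the estimate at one point of the straightened picture -/
theorem point [MeasurableSpace Y] [BorelSpace Y] [MeasurableSpace S] [BorelSpace S]
    (ν : Measure Y) [ν.IsAddHaarMeasure] (κ : Measure S) [κ.IsAddHaarMeasure]
    {a : Y × S → Y} {g : Y × S → H} {e : Y × S → Y × S} {V : Set (Y × S)} {s₀ : S} {c C : ℝ≥0∞}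
    (hi : InjOn e V) (he : ∀ u ∈ V, DifferentiableAt ℂ e u) (hg : ∀ u ∈ V, DifferentiableAt ℂ g (e u))
    (hc : ∀ u ∈ V, c ≤ ENNReal.ofReal (‖(fderiv ℂ e u).det‖ ^ 2))
    (ha : ∀ u ∈ V, a (e u) = a (u.1, s₀))
    (hC : ∀ K ⊆ e '' V, IsCompact K → ∫⁻ z in K, ‖g z‖ₑ ^ 2 ∂(ν.prod κ) ≤ C * ν (a '' K))
    {u : Y × S} {R : ℝ} (hR : 0 < R) (hu : closedBall u R ⊆ V) (hs : AnalyticAt ℂ a (u.1, s₀))
    {ε : ℝ} (hε : 0 < ε) : c * κ (ball 0 R) * ‖g (e u)‖ₑ ^ 2 ≤
      C * ENNReal.ofReal (‖jac a (u.1, s₀)‖ ^ 2 + ε) := by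
  have : CompleteSpace S := FiniteDimensional.complete ℂ S
  have : FiniteDimensional ℝ Y := FiniteDimensional.complexToReal Y
  have : FiniteDimensional ℝ S := FiniteDimensional.complexToReal S
  have : ProperSpace Y := FiniteDimensional.proper ℂ Y
  have : ProperSpace S := FiniteDimensional.proper ℂ S
  obtain ⟨r, h1, hr⟩ := ((vol_slice ν hs hε).and (Ioo_mem_nhdsGT hR)).exists
  set B : Set (Y × S) := closedBall u.1 r ×ˢ closedBall u.2 R with hB
  have hBV : B ⊆ V := fun v hv => hu (by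
    rw [← closedBall_prod_same u.1 u.2 R]
    exact ⟨closedBall_subset_closedBall hr.2.le hv.1, hv.2⟩)
  have hBc : IsCompact B := (isCompact_closedBall _ _).prod (isCompact_closedBall _ _)
  have hsub : ball u.1 r ×ˢ ball u.2 R ⊆ B := prod_mono ball_subset_closedBall ball_subset_closedBall
  have h2 := submean (ν.prod κ) (g := fun v => g (e v)) (u := u)
    (B := ball (0 : Y) r ×ˢ ball (0 : S) R) (B' := ball u.1 r ×ˢ ball u.2 R)
    (isOpen_ball.prod isOpen_ball) (fun t ht => by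
      rintro _ ⟨v, hv, rfl⟩
      exact ⟨(balanced_ball_zero (𝕜 := ℂ)).smul_mem ht hv.1,
        (balanced_ball_zero (𝕜 := ℂ)).smul_mem ht hv.2⟩)
    (fun v => by simp) fun v hv => (hg v (hBV (hsub hv))).comp v (he v (hBV (hsub hv)))
  have h3 := lintegral_image_eq_lintegral_abs_det_fderiv_mul (ν.prod κ) hBc.measurableSet
    (f := e) (f' := fun v => (fderiv ℂ e v).restrictScalars ℝ)
    (fun v hv => ((he v (hBV hv)).hasFDerivAt.restrictScalars ℝ).hasFDerivWithinAt)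
    (hi.mono hBV) fun z => ‖g z‖ₑ ^ 2
  have h4 := hC (e '' B) (image_mono hBV)
    (hBc.image_of_continuousOn fun v hv => (he v (hBV hv)).continuousAt.continuousWithinAt)
  have h5 : a '' (e '' B) ⊆ (fun x => a (x, s₀)) '' closedBall u.1 r := by
    rintro _ ⟨_, ⟨v, hv, rfl⟩, rfl⟩
    exact ⟨v.1, hv.1, (ha v (hBV hv)).symm⟩
  have h6 : c * ∫⁻ v in ball u.1 r ×ˢ ball u.2 R, ‖g (e v)‖ₑ ^ 2 ∂(ν.prod κ) ≤
      ∫⁻ z in e '' B, ‖g z‖ₑ ^ 2 ∂(ν.prod κ) := by
    rw [h3]
    refine (mul_le_mul_right (lintegral_mono_set hsub) c).trans ((lintegral_const_mul_le _ _).trans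
      (setLIntegral_mono' hBc.measurableSet fun v hv => mul_le_mul_left ?_ _))
    rw [det_real, abs_of_nonneg (by positivity)]
    exact hc v (hBV hv)
  rw [Measure.prod_prod, Measure.addHaar_ball_center κ u.2 R] at h2
  have h7 := (mul_le_mul_right h2 c).trans (h6.trans (h4.trans
    (mul_le_mul_right ((measure_mono h5).trans h1) C)))
  refine (ENNReal.mul_le_mul_iff_left (measure_ball_pos ν u.1 hr.1).ne'
    measure_ball_lt_top.ne).1 ?_
  calc _ = c * (‖g (e u)‖ₑ ^ 2 * (ν (ball u.1 r) * κ (ball 0 R))) := by ring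
    _ ≤ _ := h7
    _ = _ := by ring

omit [FiniteDimensional ℂ Y] [FiniteDimensional ℂ S] in
/-- the Jacobian along a plaque -/
theorem jac_eq {a : Y × S → Y} {e : Y × S → Y × S} {s₀ : S} {u : Y × S}
    (he : DifferentiableAt ℂ e u) (ha : DifferentiableAt ℂ a (e u))
    (hs : DifferentiableAt ℂ a (u.1, s₀))
    (h : ∀ᶠ v in 𝓝 u, (e v).2 = v.2 ∧ a (e v) = a (v.1, s₀)) :
    jac a (u.1, s₀) = jac a (e u) * ((fst ℂ Y S).comp ((fderiv ℂ e u).comp (inl ℂ Y S))).det := by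
  have h1 : (snd ℂ Y S).comp (fderiv ℂ e u) = snd ℂ Y S := he.hasFDerivAt.snd.unique
    (hasFDerivAt_snd.congr_of_eventuallyEq (h.mono fun v hv => hv.1))
  have h2 : HasFDerivAt (fun v : Y × S => ((v.1, s₀) : Y × S)) ((inl ℂ Y S).comp (fst ℂ Y S)) u :=
    HasFDerivAt.comp (g := fun y : Y => ((y, s₀) : Y × S)) u (hasFDerivAt_prodMk_left _ _)
      hasFDerivAt_fst
  have h3 : (fderiv ℂ a (e u)).comp (fderiv ℂ e u) =
      (fderiv ℂ a (u.1, s₀)).comp ((inl ℂ Y S).comp (fst ℂ Y S)) :=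
    (ha.hasFDerivAt.comp u he.hasFDerivAt).unique
      ((HasFDerivAt.comp (f := fun v : Y × S => ((v.1, s₀) : Y × S)) u hs.hasFDerivAt
        h2).congr_of_eventuallyEq (h.mono fun v hv => hv.2))
  rw [jac, jac, ContinuousLinearMap.det, ContinuousLinearMap.det, ContinuousLinearMap.det,
    ← LinearMap.det_comp]
  congr 1
  ext y : 1
  have h4 : (fderiv ℂ e u (y, 0)).2 = 0 := congrArg (fun L : Y × S →L[ℂ] S => L (y, 0)) h1
  have h5 : fderiv ℂ a (e u) (fderiv ℂ e u (y, 0)) = fderiv ℂ a (u.1, s₀) (y, 0) :=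
    congrArg (fun L : Y × S →L[ℂ] Y => L (y, 0)) h3
  change fderiv ℂ a (u.1, s₀) (y, 0) = fderiv ℂ a (e u) ((fderiv ℂ e u (y, 0)).1, 0)
  rw [← h5]
  exact congrArg _ (Prod.ext rfl h4)

/-- **the estimate in a product** -/
theorem core [MeasurableSpace Y] [BorelSpace Y] [MeasurableSpace S] [BorelSpace S]
    (ν : Measure Y) [ν.IsAddHaarMeasure] (κ : Measure S) [κ.IsAddHaarMeasure]
    {a : Y × S → Y} {g : Y × S → H} {w : Y × S → S →L[ℂ] Y} {z₀ : Y × S}
    (ha : AnalyticAt ℂ a z₀) (hg : ∀ᶠ z in 𝓝 z₀, DifferentiableAt ℂ g z) (hw : AnalyticAt ℂ w z₀)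
    (h0 : ∀ᶠ z in 𝓝 z₀, ∀ s, fderiv ℂ a z (w z s, s) = 0) {N : Set (Y × S)} (hN : N ∈ 𝓝 z₀)
    {C : ℝ≥0∞} (hC : C ≠ ⊤)
    (hb : ∀ K ⊆ N, IsCompact K → ∫⁻ z in K, ‖g z‖ₑ ^ 2 ∂(ν.prod κ) ≤ C * ν (a '' K)) :
    ∃ C' : ℝ, ∀ᶠ z in 𝓝 z₀, ‖g z‖ ≤ C' * ‖jac a z‖ := by
  have : CompleteSpace Y := FiniteDimensional.complete ℂ Y
  have : CompleteSpace S := FiniteDimensional.complete ℂ S
  have : FiniteDimensional ℝ S := FiniteDimensional.complexToReal S
  have haa := ha.eventually_analyticAt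
  obtain ⟨e, hz, hez, he, he', hi, hs⟩ := exists_str (haa.mono fun z h => h.differentiableAt) hw h0
  have hec : Tendsto e (𝓝 z₀) (𝓝 z₀) := by
    have h1 := (he z₀ hz).continuousAt
    rwa [ContinuousAt, hez] at h1
  have hd : 0 < ‖(fderiv ℂ e z₀).det‖ ^ 2 := by
    refine pow_pos (norm_pos_iff.2 fun h => ?_) 2
    exact LinearMap.det_eq_zero_iff_ker_ne_bot.1 h (LinearMap.ker_eq_bot.2 hi)
  have hfc := (he z₀ hz).fderiv.continuousAt
  set T : Y × S → ℝ := fun u => ‖((fst ℂ Y S).comp ((fderiv ℂ e u).comp (inl ℂ Y S))).det‖ with hT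
  have e1 : ∀ᶠ u in 𝓝 z₀, ‖(fderiv ℂ e z₀).det‖ ^ 2 / 2 < ‖(fderiv ℂ e u).det‖ ^ 2 :=
    continuousAt_const.eventually_lt ((continuous_det.continuousAt.comp hfc).norm.pow 2)
      (half_lt_self hd)
  have e2 : ∀ᶠ u in 𝓝 z₀, T u < T z₀ + 1 := ContinuousAt.eventually_lt
    (continuous_det.continuousAt.comp
      (continuousAt_const.clm_comp (hfc.clm_comp continuousAt_const))).norm
    continuousAt_const (lt_add_one _)
  have e3 : ∀ᶠ u in 𝓝 z₀, AnalyticAt ℂ a (u.1, z₀.2) :=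
    (by fun_prop : ContinuousAt (fun u : Y × S => ((u.1, z₀.2) : Y × S)) z₀).eventually haa
  have e4 := ((e1.and e2).and (e3.and (e.open_source.mem_nhds hz))).and
    (hec.eventually ((hg.and haa).and hN))
  obtain ⟨ρ, hρ, h1⟩ := nhds_basis_ball.eventually_iff.1 e4
  have hR : 0 < ρ / 2 := half_pos hρ
  set c := ENNReal.ofReal (‖(fderiv ℂ e z₀).det‖ ^ 2 / 2) * κ (ball 0 (ρ / 2)) with hc
  have hc0 : c ≠ 0 := mul_ne_zero (by simpa using hd) (measure_ball_pos κ _ hR).ne'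
  have hct : c ≠ ⊤ := ENNReal.mul_ne_top ENNReal.ofReal_ne_top
    (by have : ProperSpace S := FiniteDimensional.proper ℂ S; exact measure_ball_lt_top.ne)
  have key : ∀ u ∈ ball z₀ (ρ / 2),
      ‖g (e u)‖ ≤ √(C.toReal / c.toReal) * (T z₀ + 1) * ‖jac a (e u)‖ := by
    intro u hu
    have hu' : u ∈ ball z₀ ρ := ball_subset_ball (half_le_self hρ.le) hu
    have h2 : ∀ ε : ℝ, 0 < ε → c.toReal * ‖g (e u)‖ ^ 2 ≤
        C.toReal * (‖jac a (u.1, z₀.2)‖ ^ 2 + ε) := fun ε hε => by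
      have h3 := point ν κ (V := ball z₀ ρ) (e.injOn.mono fun v hv => (h1 hv).1.2.2)
        (fun v hv => (he v (h1 hv).1.2.2).differentiableAt) (fun v hv => (h1 hv).2.1.1)
        (fun v hv => ENNReal.ofReal_le_ofReal (h1 hv).1.1.1.le)
        (fun v hv => (hs v (h1 hv).1.2.2).2)
        (fun K hK => hb K (hK.trans (image_subset_iff.2 fun v hv => (h1 hv).2.2))) hR
        (closedBall_subset_ball' (by have := mem_ball.1 hu; linarith)) (h1 hu').1.2.1 hε
      have h4 : (c * ‖g (e u)‖ₑ ^ 2).toReal ≤ _ :=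
        ENNReal.toReal_mono (ENNReal.mul_ne_top hC ENNReal.ofReal_ne_top) h3
      rwa [ENNReal.toReal_mul, ENNReal.toReal_mul (a := C), ENNReal.toReal_ofReal (by positivity),
        ENNReal.toReal_pow, toReal_enorm] at h4
    have h3 : c.toReal * ‖g (e u)‖ ^ 2 ≤ C.toReal * ‖jac a (u.1, z₀.2)‖ ^ 2 := by
      have h4 : Tendsto (fun ε : ℝ => C.toReal * (‖jac a (u.1, z₀.2)‖ ^ 2 + ε)) (𝓝[>] 0)
          (𝓝 (C.toReal * (‖jac a (u.1, z₀.2)‖ ^ 2 + 0))) :=
        (Continuous.tendsto (by fun_prop) 0).mono_left nhdsWithin_le_nhds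
      rw [add_zero] at h4
      exact ge_of_tendsto h4 (eventually_mem_nhdsWithin.mono fun ε hε => h2 ε hε)
    have hcp : 0 < c.toReal := ENNReal.toReal_pos hc0 hct
    have h4 : ‖g (e u)‖ ≤ √(C.toReal / c.toReal) * ‖jac a (u.1, z₀.2)‖ := by
      refine (pow_le_pow_iff_left₀ (norm_nonneg _) (by positivity) two_ne_zero).1 ?_
      rw [mul_pow, Real.sq_sqrt (by positivity), div_mul_eq_mul_div, le_div_iff₀' hcp]
      exact h3
    rw [jac_eq (he u (h1 hu').1.2.2).differentiableAt (h1 hu').2.1.2.differentiableAt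
      (h1 hu').1.2.1.differentiableAt
      ((e.open_source.eventually_mem (h1 hu').1.2.2).mono hs), norm_mul] at h4
    refine h4.trans ?_
    rw [mul_assoc, mul_comm (T z₀ + 1)]
    exact mul_le_mul_of_nonneg_left
      (mul_le_mul_of_nonneg_left (h1 hu').1.1.2.le (norm_nonneg _)) (Real.sqrt_nonneg _)
  have hzt : z₀ ∈ e.target := hez ▸ e.map_source hz
  have hsy : Tendsto e.symm (𝓝 z₀) (𝓝 z₀) := by
    have h2 := (he' z₀ hzt).continuousAt
    have h3 : e.symm z₀ = z₀ := by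
      have h4 := e.left_inv hz
      rwa [hez] at h4
    rwa [ContinuousAt, h3] at h2
  refine ⟨√(C.toReal / c.toReal) * (T z₀ + 1), ?_⟩
  filter_upwards [hsy.eventually (ball_mem_nhds z₀ hR), e.open_target.mem_nhds hzt] with z h2 h3
  have h4 := key _ h2
  rwa [e.right_inv h3] at h4

end Crest.Agent.X261.Gauss.NP
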