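import Crest.Agent.X261.Gauss.GS
import Crest.Agent.X261.Plk.Wm
import Crest.Agent.X261.Plk.E
import Crest.Agent.X261.Fol.Loc

/-!
# Row 261, GAUSS (helper28), file `Par`: the fibres of the Gauss map are the leaves

* `exists_pt` : a general point of an open set at which `τ ≠ 0`;
* `par`       : `p = q + r` and `η^r ∧ τ` is proportional to `e` on an open set.
-/

set_option autoImplicit false
set_option linter.unusedSectionVars false
set_option linter.dupNamespace false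

open Set Filter Topology MeasureTheory Module Matrix

namespace Crest.Agent.X261.Gauss.Par

open Crest.Agent.R275.Geo Crest.Agent.R275.Core144 Crest.Agent.R273.UCov_914
open Crest.Agent.R275.OmT75 (dj dl)
open Crest.Agent.R273.Fock_243 (FI)
open Crest.Agent.R281.Kd_22 (ev_iff)
open Crest.Agent.X261.Plk (snf Pc wc Sp kerF kerS)
open Crest.Agent.X261.Ans (HA)
open Crest.Agent.X261.Eqv (AE)
open Crest.Agent.X261.Top (dW Fol)

noncomputable section

variable {n q r : ℕ} {X : Type} [TopologicalSpace X] {A : Atl n X} {G : Type} [Group G]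
  {D : MonD A G} {H : Type} [NormedAddCommGroup H] [InnerProductSpace ℂ H]

theorem cont_pt {i : A.ι} (v : G) {x : X} (hx : x ∈ (A.e i).source) :
    ContinuousAt (D.pt i v) x :=
  (D.continuousOn_pt i v).continuousAt ((A.e i).open_source.mem_nhds hx)

/-- a general point of an open set at which `τ ≠ 0` -/
theorem exists_pt [PreconnectedSpace (D.cov G)] (Φ : Frm D q H) {O : Set (D.cov G)}
    (hO : IsOpen O) (hne : O.Nonempty) {P : D.cov G → Prop}
    (h : AE volume (HA.of (D.atl G)) P) :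
    ∃ i v, ∃ x ∈ (A.e i).source, D.pt i v x ∈ O ∧ P (D.pt i v x) ∧ dW A i (Φ.a i v) x ≠ 0 := by
  obtain ⟨y₀, hy₀⟩ := hne
  obtain ⟨i, hi⟩ := A.cover (D.pr y₀)
  have h1 : ∀ᶠ x in 𝓝 (D.pr y₀), x ∈ (A.e i).source ∧ D.pt i (D.co i y₀) x ∈ O :=
    Eventually.and ((A.e i).open_source.mem_nhds hi)
      ((cont_pt _ hi).eventually (hO.mem_nhds (by rwa [D.pt_co hi])))
  obtain ⟨x₁, h2, h3, h4⟩ :=
    ((not_eventually.1 (Plk.Fr.tau_nf Φ i (D.co i y₀) hi)).and_eventually h1).exists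
  have h5 : ∀ᶠ x in 𝓝 x₁, dW A i (Φ.a i (D.co i y₀)) x ≠ 0 :=
    (Plk.Fr.cont_of_an (f := dW A i (Φ.a i (D.co i y₀))) h3 (continuousAt_pi.2 fun I =>
      (Plk.Fr.an_dW Φ i _ I ((A.e i).map_source h3)).continuousAt)).eventually_ne h2
  have h6 : ∀ᶠ y in 𝓝 (D.pt i (D.co i y₀) x₁), (D.pr y ∈ (A.e i).source ∧
      D.co i y = D.co i (D.pt i (D.co i y₀) x₁)) ∧ y ∈ O ∧
        dW A i (Φ.a i (D.co i y₀)) (D.pr y) ≠ 0 :=
    (D.co_eventually (e := D.pt i (D.co i y₀) x₁) h3).and (Eventually.and (hO.mem_nhds h4)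
      ((D.continuous_pr.continuousAt (x := D.pt i (D.co i y₀) x₁)).eventually h5))
  obtain ⟨y, ⟨⟨h7, h8⟩, h9, h10⟩, h11⟩ := h.exists_mem h6
  rw [D.co_pt _ h3] at h8
  have h12 : D.pt i (D.co i y₀) (D.pr y) = y := by rw [← h8, D.pt_co h7]
  exact ⟨i, D.co i y₀, D.pr y, h7, by rwa [h12], by rwa [h12], h10⟩

/-- **PAR** -/
theorem par [PreconnectedSpace (D.cov G)] (Φ : Frm D q H) (hr : Φ.Rk r)
    (Gm : GM D (Fin r → FI n) (Pc H r)) (hb : ∀ i v x, Gm.b i v x = pl r (Φ.S i v x)) {p : ℕ}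
    (F : Fol D p) (hE : Φ.Eta F.T)
    (hS : AE volume (HA.of (D.atl G)) fun y => y ∈ F.T.M0 ∧ Gm.bb y ≠ 0 ∧
      ∀ᶠ x in 𝓝 y, snf (Gm.bb x) (Gm.bb y) = 0 → F.T.π y x = 0) :
    p = q + r ∧ ∃ i v, ∃ O : Set X, IsOpen O ∧ O.Nonempty ∧ O ⊆ (A.e i).source ∧ ∀ x ∈ O,
      ∃ Ψ : Pc H r, ∀ I, Sp (wc H r).toAlternatingMap (dV A i (Φ.a i v) x) (Φ.S i v x) I
        = F.e i x I • Ψ := by
  obtain ⟨O, hO, hne, hE⟩ := hE
  obtain ⟨i, v, x, hx, hxO, ⟨hM, h0, hfib⟩, hτ⟩ := exists_pt Φ hO hne hS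
  set y := D.pt i v x with hy
  have hT := F.T.T_mem y hM
  have hsrc : ∀ x' ∈ (A.e i).source, D.pt i v x' ∈ ((D.atl G).e (i, v)).source :=
    fun x' hx' => D.pt_mem_source (p := (i, v)) hx'
  have hker : ∀ x' ∈ (A.e i).source, D.pt i v x' ∈ O → D.pt i v x' ∈ F.T.T y →
      ∀ w ∈ kerF (dV (D.atl G) (i, v) (F.T.π y) (D.pt i v x')),
        w ∈ kerS (dV A i (Φ.a i v) x') (Φ.S i v x') := by
    intro x' hx' h1 h2 w hw
    have h3 := hE y hM _ h2 h1 i hx' w (by rw [D.co_pt v hx']; exact hw)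
    unfold Frm.Ker at h3
    rw [D.co_pt v hx'] at h3
    exact h3
  have hrk : finrank ℂ (Submodule.span ℂ (range (Φ.S i v x))) = r := by
    obtain ⟨I, hI⟩ := Function.ne_iff.1 (mt (Gm.bb_eq_zero (v := v) hx).2 h0)
    rw [hb] at hI
    exact (span_of_pl (hr.le i v x hx) hI).2
  have hz := (A.e i).map_source hx
  have hV : ∀ᶠ z in 𝓝 (A.e i x), z ∈ (A.e i).target := (A.e i).open_target.mem_nhds hz
  have hpq : p = q + r := by
    refine le_antisymm ?_ ((Plk.Fr.hor Φ i v hx).le_of_ker hτ hrk (hker x hx hxO hT))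
    refine Plk.le_of_fib (th := fun z => dV A i (Φ.a i v) ((A.e i).symm z))
      (S := fun z => Φ.S i v ((A.e i).symm z)) (z := A.e i x)
      (f := fun k z => F.T.π y (D.pt i v ((A.e i).symm z)) k)
      (hV.mono fun z hz k b => (Plk.Fr.an_th Φ i v k b hz).differentiableAt)
      (hV.mono fun z hz I => Plk.Fr.diff_S Φ i v I hz)
      (hV.mono fun z hz => Plk.Fr.hor Φ i v ((A.e i).map_target hz))
      (hV.mono fun z hz => ?_) (hV.mono fun z hz => hr.le i v _ ((A.e i).map_target hz))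
      (by rw [(A.e i).left_inv hx]; exact hτ) (by rw [(A.e i).left_inv hx]; exact hrk)
      (fun k => ?_) ?_ ?_
    · have h1 := Φ.closed i v _ ((A.e i).map_target hz)
      simp only [dl, (A.e i).right_inv hz] at h1
      exact h1
    · have h1 : DifferentiableAt ℂ (fun z => F.T.π y (D.pt i v ((A.e i).symm z))) (A.e i x) :=
        (Fol.tube_an F.T hM hT (hsrc x hx)).differentiableAt
      exact (EuclideanSpace.proj k : Cn p →L[ℂ] ℂ).differentiableAt.comp (A.e i x) h1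
    · have h1 := Fol.tube_ne F.T hM hT (hsrc x hx)
      simp only [dW, dl, MonD.atl_e, MonD.chart_symm, MonD.chart_apply, hy, MonD.pr_pt] at h1 ⊢
      exact h1
    · filter_upwards [hV, (ev_iff hx).1 ((cont_pt v hx).eventually hfib)] with z h1 h2 h3 k
      rw [(A.e i).left_inv hx] at h3 ⊢
      rw [F.T.π_self y hM, h2]
      rw [hy, Gm.snf_pt ((A.e i).map_target h1) hx, hb, hb]
      exact snf_pl_of_le hrk fun I => h3 ▸ Submodule.subset_span ⟨I, rfl⟩
  refine ⟨hpq, i, v, (A.e i).source ∩ D.pt i v ⁻¹' (O ∩ F.T.T y),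
    (D.continuousOn_pt i v).isOpen_inter_preimage (A.e i).open_source
      (hO.inter (F.T.T_opn y hM)), ⟨x, hx, hxO, hT⟩, inter_subset_left, fun x' hx' => ?_⟩
  obtain ⟨Ψ, hΨ⟩ := (Plk.Fr.hor Φ i v hx'.1).par (wc H r).toAlternatingMap hpq
    (hker x' hx'.1 hx'.2.1 hx'.2.2)
  obtain ⟨c, hc, h1⟩ := F.gen y hM (i, v) _ hx'.2.2 (hsrc x' hx'.1)
  refine ⟨c⁻¹ • Ψ, fun I => ?_⟩
  have h2 : F.e i x' I = c * Top.wdg (dV (D.atl G) (i, v) (F.T.π y) (D.pt i v x')) I :=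
    congrFun h1 I
  rw [hΨ, h2, smul_smul, mul_right_comm, mul_inv_cancel₀ hc, one_mul]

end

end Crest.Agent.X261.Gauss.Par
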