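import Crest.Agent.X261.Gauss.Stm
import Crest.Agent.X261.Plk.B
import Crest.Agent.X261.Psh.Loc
import Crest.Agent.X261.Ans.Man3
import Crest.Agent.X261.Eqv.A

/-!
# Row 261, GAUSS (helper56), file `TP`: the two-point system of an equivariant family of lines

* `an_zero`  : zero sets of vector valued holomorphic families are analytic;
* `GM D κ W` : holomorphic rank one families in a Hilbert space, equivariant, with weights;
* `GM.tp`    : the two-point system `φ = log ‖b‖²`, `Ξ = log sin²`;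
* `GM.of_tr`, `GM.of_shell` : what the outputs of RELN say about the lines.
-/

set_option autoImplicit false
set_option linter.unusedSectionVars false
set_option linter.dupNamespace false

open Set Filter Topology MeasureTheory
open scoped ENNReal InnerProductSpace

namespace Crest.Agent.X261.Gauss

open Crest.Agent.R275.Geo Crest.Agent.R273.UCov_914
open Crest.Agent.X261.Plk Crest.Agent.X261.Psh
open Crest.Agent.X261.Ans (HA)
open Crest.Agent.X261.Eqv (TP AE PW)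
open Crest.Agent.X261.Top (Tube)

noncomputable section

/-! ### the logarithm -/

/-- logarithm with values in `EReal` -/
def Lg (t : ℝ) : EReal := ENNReal.log (ENNReal.ofReal t)

theorem Lg_mul {a : ℝ} (ha : 0 ≤ a) (b : ℝ) : Lg (a * b) = Lg a + Lg b := by
  rw [Lg, ENNReal.ofReal_mul ha, ENNReal.log_mul_add]; rfl

theorem Lg_exp (s : ℝ) : Lg (Real.exp s) = s := by
  rw [Lg, ENNReal.log_ofReal_of_pos (Real.exp_pos s), Real.log_exp]

theorem Lg_mono {a b : ℝ} (h : a ≤ b) : Lg a ≤ Lg b :=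
  ENNReal.log_monotone (ENNReal.ofReal_le_ofReal h)

theorem Lg_le {t a : ℝ} : Lg t ≤ a ↔ t ≤ Real.exp a := by
  rw [← Lg_exp, Lg, Lg, ENNReal.log_le_log_iff, ENNReal.ofReal_le_ofReal_iff (Real.exp_pos a).le]

theorem le_Lg {t a : ℝ} (h : (a : EReal) ≤ Lg t) : 0 < t := by
  by_contra h0
  rw [Lg, ENNReal.ofReal_eq_zero.2 (not_lt.1 h0), ENNReal.log_zero] at h
  exact (EReal.bot_lt_coe a).not_ge h

theorem Lg_eq_bot {t : ℝ} : Lg t = ⊥ ↔ t ≤ 0 := by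
  rw [Lg, ENNReal.log_eq_bot_iff, ENNReal.ofReal_eq_zero]

theorem Lg_add (a s : ℝ) : Lg (a * Real.exp (-s)) + (s : ℝ) = Lg a := by
  have h : a = Real.exp s * (a * Real.exp (-s)) := by
    rw [mul_left_comm, ← Real.exp_add, add_neg_cancel, Real.exp_zero, mul_one]
  conv_rhs => rw [h, Lg_mul (Real.exp_pos s).le, Lg_exp, add_comm]

theorem isPsh_Lg {E F : Type*} [NormedAddCommGroup E] [NormedSpace ℂ E] [NormedAddCommGroup F]
    [NormedSpace ℂ F] {D : Set E} {f : E → F} (hD : IsOpen D) (hf : DifferentiableOn ℂ f D) :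
    IsPsh D fun x => Lg (‖f x‖ ^ 2) :=
  ((isPsh_log_norm hD hf).add (isPsh_log_norm hD hf)).congr fun x _ => by
    simp only [sq]
    rw [Lg_mul (norm_nonneg _), Lg, ofReal_norm]

variable {n : ℕ} {X : Type} [TopologicalSpace X] {A : Atl n X} {G : Type} [Group G]

/-! ### zero sets -/

theorem an_zero {W : Type*} [NormedAddCommGroup W] [InnerProductSpace ℂ W] (D : MonD A G)
    {Z : Set (D.cov G)} {κ : Type*} {f : A.ι → G → X → κ → W}
    (hf : ∀ i v k, DifferentiableOn ℂ (fun z => f i v ((A.e i).symm z) k) (A.e i).target)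
    (h : ∀ i v, ∀ x ∈ (A.e i).source, (D.pt i v x ∈ Z ↔ f i v x = 0)) :
    (HA.of (D.atl G)).An univ Z := by
  intro y _
  obtain ⟨i, hi⟩ := A.cover (D.pr y)
  refine ⟨(i, D.co i y), ⟨hi, rfl⟩, (A.e i).target, (A.e i).open_target, (A.e i).map_source hi,
    fun z hz hZ => ?_⟩
  have h1 : f i (D.co i y) ((A.e i).symm z) ≠ 0 := fun h0 =>
    hZ ((h i _ _ ((A.e i).map_target hz)).2 h0)
  obtain ⟨k, hk⟩ := Function.ne_iff.1 h1
  refine ⟨fun w => ⟪f i (D.co i y) ((A.e i).symm z) k, f i (D.co i y) ((A.e i).symm w) k⟫_ℂ,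
    ⟨R266.SCV.analyticOnNhd_of_differentiableOn (A.e i).open_target
      ((innerSL ℂ _).differentiable.comp_differentiableOn (hf i _ k)), fun w hw hwZ => ?_⟩,
    fun h0 => hk (inner_self_eq_zero.1 h0)⟩
  have := (h i _ _ ((A.e i).map_target hw)).1 hwZ
  simp [this]

/-! ### equivariant families of lines -/

/-- holomorphic families of rank one with weights -/
structure GM (D : MonD A G) (κ : Type) [Fintype κ] (W : Type) [NormedAddCommGroup W]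
    [InnerProductSpace ℂ W] where
  b : A.ι → G → X → κ → W
  hol : ∀ i v k, DifferentiableOn ℂ (fun z => b i v ((A.e i).symm z) k) (A.e i).target
  r1 : ∀ i v, ∀ x ∈ (A.e i).source, R1 (b i v x)
  tr : ∀ i j v, ∀ x ∈ (A.e i).source ∩ (A.e j).source, ∀ k,
    b i v x k ∈ Submodule.span ℂ (range (b j (D.c i j x * v) x))
  eqv : ∀ g : G, ∃ U : W →ₗᵢ[ℂ] W, ∀ i v, ∀ x ∈ (A.e i).source, ∀ k,
    b i (v * g⁻¹) x k = U (b i v x k)
  ne : ∃ i v, ∃ x ∈ (A.e i).source, b i v x ≠ 0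
  wt : A.ι → X → ℝ
  wt_bdd : ∀ i, ∀ x ∈ (A.e i).source, ∃ C : ℝ, ∀ᶠ y in 𝓝 x, |wt i y| ≤ C
  wt_tr : ∀ i j v, ∀ x ∈ (A.e i).source ∩ (A.e j).source,
    ‖fn (b i v x)‖ ^ 2 * Real.exp (-wt i x) =
      ‖fn (b j (D.c i j x * v) x)‖ ^ 2 * Real.exp (-wt j x)

/-- a chart at `x` -/
def ch (A : Atl n X) (x : X) : A.ι := (A.cover x).choose

theorem ch_mem (x : X) : x ∈ (A.e (ch A x)).source := (A.cover x).choose_spec

theorem norm_fn_map {κ W : Type*} [Fintype κ] [NormedAddCommGroup W] [InnerProductSpace ℂ W]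
    (U : W →ₗᵢ[ℂ] W) (a : κ → W) : ‖fn fun k => U (a k)‖ = ‖fn a‖ := by
  refine (pow_left_inj₀ (norm_nonneg _) (norm_nonneg _) two_ne_zero).1 ?_
  simp only [norm_fn_sq, U.norm_map]

theorem snf_mul {κ W : Type*} [Fintype κ] [NormedAddCommGroup W] [InnerProductSpace ℂ W]
    (a b : κ → W) : snf a b * ‖fn a‖ * ‖fn b‖ = ‖wf a b‖ := by
  rw [mul_assoc]
  rcases eq_or_ne (‖fn a‖ * ‖fn b‖) 0 with h | h
  · rw [h, mul_zero]
    exact le_antisymm (norm_nonneg _) ((norm_wf_le a b).trans h.le)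
  · rw [snf, div_mul_cancel₀ _ h]

theorem Lg_wf {κ W : Type*} [Fintype κ] [NormedAddCommGroup W] [InnerProductSpace ℂ W]
    (a b : κ → W) (s t : ℝ) : Lg (‖wf a b‖ ^ 2) =
      Lg (snf a b ^ 2 * (‖fn a‖ ^ 2 * Real.exp (-s)) * (‖fn b‖ ^ 2 * Real.exp (-t))) +
        ((s + t : ℝ) : EReal) := by
  rw [← snf_mul, ← Lg_add _ (s + t)]
  congr 2
  rw [neg_add, Real.exp_add]
  ring

namespace GM

variable {D : MonD A G} {κ : Type} [Fintype κ] {W : Type} [NormedAddCommGroup W]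
  [InnerProductSpace ℂ W] (Γ : GM D κ W)

/-- the family at a point of the cover -/
def bb (y : D.cov G) : κ → W := Γ.b (ch A (D.pr y)) (D.co (ch A (D.pr y)) y) (D.pr y)

/-- the invariant norm -/
def nr (y : D.cov G) : ℝ := ‖fn (Γ.bb y)‖ ^ 2 * Real.exp (-Γ.wt (ch A (D.pr y)) (D.pr y))

theorem nr_nonneg (y : D.cov G) : 0 ≤ Γ.nr y := by unfold nr; positivity

theorem bb_r1 (y : D.cov G) : R1 (Γ.bb y) := Γ.r1 _ _ _ (ch_mem _)

variable {i j : A.ι} {v v' : G} {x x' : X}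

theorem bb_pt (hx : x ∈ (A.e i).source) :
    Γ.bb (D.pt i v x) = Γ.b (ch A x) (D.c i (ch A x) x * v) x := by
  unfold bb
  rw [D.pr_pt, D.co_pt' v hx (ch_mem x), smul_eq_mul]

theorem nr_pt (hx : x ∈ (A.e i).source) :
    Γ.nr (D.pt i v x) = ‖fn (Γ.b i v x)‖ ^ 2 * Real.exp (-Γ.wt i x) := by
  rw [nr, Γ.bb_pt hx, Γ.wt_tr i (ch A x) v x ⟨hx, ch_mem x⟩, D.pr_pt]

theorem bb_eq_zero (hx : x ∈ (A.e i).source) : Γ.bb (D.pt i v x) = 0 ↔ Γ.b i v x = 0 := by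
  have h := Γ.nr_pt (v := v) hx
  rw [nr] at h
  have key : ∀ (a : κ → W) (t : ℝ), a = 0 ↔ ‖fn a‖ ^ 2 * Real.exp t = 0 := fun a t => by
    rw [mul_eq_zero_iff_right (Real.exp_pos _).ne', pow_eq_zero_iff two_ne_zero, norm_eq_zero,
      fn_eq_zero]
  rw [key _ _, h, ← key]

theorem snf_pt (hx : x ∈ (A.e i).source) (hx' : x' ∈ (A.e j).source) :
    snf (Γ.bb (D.pt i v x)) (Γ.bb (D.pt j v' x')) = snf (Γ.b i v x) (Γ.b j v' x') := by
  by_cases h : Γ.b i v x = 0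
  · rw [h, (Γ.bb_eq_zero hx).2 h, snf_zero_left, snf_zero_left]
  by_cases h' : Γ.b j v' x' = 0
  · rw [h', (Γ.bb_eq_zero hx').2 h', snf_zero_right, snf_zero_right]
  refine (snf_congr LinearIsometry.id (Γ.bb_r1 _) (Γ.bb_r1 _) h h' (fun k => ?_) fun k => ?_).2.2.symm
  · rw [Γ.bb_pt hx]; exact Γ.tr i _ v x ⟨hx, ch_mem x⟩ k
  · rw [Γ.bb_pt hx']; exact Γ.tr j _ v' x' ⟨hx', ch_mem x'⟩ k

theorem bb_deck (g : G) : ∃ U : W →ₗᵢ[ℂ] W, ∀ y, Γ.bb (g • y) = fun k => U (Γ.bb y k) := by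
  obtain ⟨U, hU⟩ := Γ.eqv g
  refine ⟨U, fun y => funext fun k => ?_⟩
  unfold bb
  rw [D.co_deck, D.pr_deck]
  exact hU _ _ _ (ch_mem _) k

theorem nr_deck (g : G) (y : D.cov G) : Γ.nr (g • y) = Γ.nr y := by
  obtain ⟨U, hU⟩ := Γ.bb_deck g
  rw [nr, hU, norm_fn_map, D.pr_deck, nr]

theorem bb_deck_ne (g : G) {y : D.cov G} (h : Γ.bb y ≠ 0) : Γ.bb (g • y) ≠ 0 := by
  obtain ⟨U, hU⟩ := Γ.bb_deck g
  rw [Ne, ← fn_eq_zero, ← norm_eq_zero, hU, norm_fn_map, norm_eq_zero, fn_eq_zero]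
  exact h

theorem an_bb : (HA.of (D.atl G)).An univ {y | Γ.bb y = 0} :=
  an_zero D Γ.hol fun _ _ _ hx => Γ.bb_eq_zero hx

theorem hol_fn (i : A.ι) (v : G) :
    DifferentiableOn ℂ (fun z => fn (Γ.b i v ((A.e i).symm z))) (A.e i).target :=
  (PiLp.continuousLinearEquiv 2 ℂ fun _ : κ => W).symm.differentiable.comp_differentiableOn
    (differentiableOn_pi.2 (Γ.hol i v))

theorem hol_wf (i j : A.ι) (v v' : G) : DifferentiableOn ℂ
    (fun z : Cn n × Cn n => wf (Γ.b i v ((A.e i).symm z.1)) (Γ.b j v' ((A.e j).symm z.2)))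
    ((A.e i).target ×ˢ (A.e j).target) :=
  (PiLp.continuousLinearEquiv 2 ℂ fun _ : κ × κ => T2 W).symm.differentiable.comp_differentiableOn
    (differentiableOn_pi.2 fun p => DifferentiableOn.clm_apply (c := fun z : Cn n × Cn n =>
      w2L W (Γ.b i v ((A.e i).symm z.1) p.1))
      ((w2L W).differentiable.comp_differentiableOn
        ((Γ.hol i v p.1).comp differentiableOn_fst fun _ hz => hz.1))
      ((Γ.hol j v' p.2).comp differentiableOn_snd fun _ hz => hz.2))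

theorem ae_ne [ConnectedSpace (D.cov G)] :
    AE volume (HA.of (D.atl G)) fun y => Γ.bb y ≠ 0 := by
  refine Eqv.ae_of_cov (Γ.an_bb.cov_of_ne fun h => ?_)
  obtain ⟨i, v, x, hx, h0⟩ := Γ.ne
  exact h0 ((Γ.bb_eq_zero hx).1 (eq_univ_iff_forall.1 h (D.pt i v x)))

theorem pole [CompleteSpace W] (i : A.ι) (v : G) {z₀ : Cn n} (hz₀ : z₀ ∈ (A.e i).target) :
    ∃ C : ℝ, ∃ V ∈ 𝓝 z₀, ∀ z ∈ V, ∀ w ∈ V, Γ.bb (D.pt i v ((A.e i).symm z)) ≠ 0 →
      ∀ r : ℝ, 0 < r → ‖z - w‖ ≤ r →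
        Lg (snf (Γ.bb (D.pt i v ((A.e i).symm z))) (Γ.bb (D.pt i v ((A.e i).symm w))) ^ 2) +
          Lg (Γ.nr (D.pt i v ((A.e i).symm w))) ≤ (2 * Real.log r + C : ℝ) := by
  have h1 : ContDiffAt ℂ 1 (fun z => fn (Γ.b i v ((A.e i).symm z))) z₀ :=
    (R266.SCV.analyticOnNhd_of_differentiableOn (A.e i).open_target (Γ.hol_fn i v) z₀ hz₀).contDiffAt
  obtain ⟨L, t, ht, hL⟩ := h1.exists_lipschitzOnWith
  obtain ⟨C, hC⟩ := Γ.wt_bdd i _ ((A.e i).map_target hz₀)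
  have hC' := ((A.e i).continuousAt_symm hz₀).eventually hC
  refine ⟨2 * Real.log (L + 1) + C, _, inter_mem (inter_mem ht hC')
    ((A.e i).open_target.mem_nhds hz₀), fun z hz w hw h0 r hr hzw => ?_⟩
  have hz' := (A.e i).map_target hz.2
  have hw' := (A.e i).map_target hw.2
  rw [← Lg_mul (sq_nonneg _), Lg_le, Γ.snf_pt hz' hw', Γ.nr_pt hw', ← mul_assoc, ← mul_pow]
  set a := Γ.b i v ((A.e i).symm z)
  set b := Γ.b i v ((A.e i).symm w)
  have ha : 0 < ‖fn a‖ := norm_pos_iff.2 (mt fn_eq_zero.1 (mt (Γ.bb_eq_zero hz').2 h0))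
  have h2 : snf a b * ‖fn b‖ ≤ (L + 1) * r := by
    refine le_of_mul_le_mul_right ?_ ha
    rw [mul_right_comm, snf_mul, norm_wf_comm]
    refine (norm_wf_le_sub (Γ.r1 i v _ hz')).trans (mul_le_mul_of_nonneg_right ?_ ha.le)
    have h3 := hL.norm_sub_le hw.1.1 hz.1.1
    rw [norm_sub_rev w z] at h3
    refine h3.trans (mul_le_mul (by simp) hzw (norm_nonneg _) (by positivity))
  have h4 : Real.exp (-Γ.wt i ((A.e i).symm w)) ≤ Real.exp C :=
    Real.exp_le_exp.2 ((neg_le_abs _).trans hw.1.2)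
  have h5 : Real.exp (2 * Real.log r + (2 * Real.log (L + 1) + C)) =
      ((L + 1) * r) ^ 2 * Real.exp C := by
    rw [Real.exp_add, Real.exp_add, two_mul, two_mul, Real.exp_add, Real.exp_add, Real.exp_log hr,
      Real.exp_log (by positivity)]
    ring
  rw [h5]
  exact mul_le_mul (pow_le_pow_left₀ (mul_nonneg (snf_nonneg _ _) (norm_nonneg _)) h2 2) h4
    (Real.exp_pos _).le (sq_nonneg _)

variable [CompactSpace X] [T2Space X] [Finite A.ι] [ConnectedSpace (D.cov G)] [CompleteSpace W]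

/-- the two-point system -/
def tp : TP volume (HA.of (D.atl G)) G where
  hol := Ans.Brg.hol_deck D
  K := D.exists_fund.choose
  K_cpt := D.exists_fund.choose_spec.1
  K_cov := D.exists_fund.choose_spec.2
  wt q z := Γ.wt q.1 ((A.e q.1).symm z)
  wt_bdd q z hz := by
    obtain ⟨C, hC⟩ := Γ.wt_bdd q.1 _ ((A.e q.1).map_target hz)
    exact ⟨C, ((A.e q.1).continuousAt_symm hz).eventually hC⟩
  φ y := Lg (Γ.nr y)
  φ_psh q := (isPsh_Lg (A.e q.1).open_target (Γ.hol_fn q.1 q.2)).congr fun z hz => by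
    change _ = Lg (Γ.nr (D.pt q.1 q.2 _)) + _
    rw [Γ.nr_pt ((A.e q.1).map_target hz), Lg_add]
  φ_inv g y := by rw [Γ.nr_deck]
  M0 := {y | Γ.bb y ≠ 0}
  M0_ae := Γ.ae_ne
  M0_inv g _ h := Γ.bb_deck_ne g h
  M0_fin y h := fun h0 => (Lg_eq_bot.1 h0).not_gt
    (mul_pos (pow_pos (norm_pos_iff.2 (mt fn_eq_zero.1 h)) 2) (Real.exp_pos _))
  u _ q := Lg (snf (Γ.bb q.1) (Γ.bb q.2) ^ 2 * Γ.nr q.1 * Γ.nr q.2)
  u_psh _ q := (isPsh_Lg ((A.e q.1.1).open_target.prod (A.e q.2.1).open_target)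
      (Γ.hol_wf q.1.1 q.2.1 q.1.2 q.2.2)).congr fun z hz => by
    have h1 := (A.e q.1.1).map_target hz.1
    have h2 := (A.e q.2.1).map_target hz.2
    change _ = Lg (snf (Γ.bb (D.pt q.1.1 q.1.2 _)) (Γ.bb (D.pt q.2.1 q.2.2 _)) ^ 2 *
      Γ.nr (D.pt q.1.1 q.1.2 _) * Γ.nr (D.pt q.2.1 q.2.2 _)) + _
    rw [Γ.snf_pt h1 h2, Γ.nr_pt h1, Γ.nr_pt h2]
    exact Lg_wf _ _ _ _
  Xi _ x y := Lg (snf (Γ.bb x) (Γ.bb y) ^ 2)
  u_eq _ _ := Eventually.of_forall fun _ _ => by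
    beta_reduce
    rw [Lg_mul (mul_nonneg (sq_nonneg _) (Γ.nr_nonneg _)), Lg_mul (sq_nonneg _)]
  Xi_le _ x _ y _ := by
    rw [← EReal.coe_zero, Lg_le, Real.exp_zero]
    exact pow_le_one₀ (snf_nonneg _ _) (snf_le_one _ _)
  Xi_symm _ x _ y _ := by rw [snf_comm]
  Xi_inv _ g x hx y hy := by
    obtain ⟨U, hU⟩ := Γ.bb_deck g
    rw [(snf_congr U (Γ.bb_r1 x) (Γ.bb_r1 y) (Γ.bb_deck_ne g hx) (Γ.bb_deck_ne g hy)
      (fun k => by rw [hU]; exact Submodule.subset_span ⟨k, rfl⟩)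
      fun k => by rw [hU]; exact Submodule.subset_span ⟨k, rfl⟩).2.2]
  tri _ := ⟨1, Real.log 4, one_pos, fun x _ y hy z _ a _ h1 h2 => by
    rw [Lg_le] at h1 h2 ⊢
    have h3 := snf_tri (Γ.bb_r1 x) (Γ.bb_r1 y) (Γ.bb_r1 z) hy
    rw [one_mul, sub_eq_add_neg, Real.exp_add, Real.exp_log four_pos]
    have h4 := pow_le_pow_left₀ (snf_nonneg _ _) h3 2
    nlinarith [sq_nonneg (snf (Γ.bb x) (Γ.bb y) - snf (Γ.bb y) (Γ.bb z))]⟩
  pole _ := ⟨2, two_pos, fun q z₀ hz₀ => by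
    obtain ⟨C, V, hV, h⟩ := Γ.pole q.1 q.2 hz₀
    exact ⟨C, V, hV, fun z hz w hw h1 _ => h z hz w hw h1⟩⟩

theorem of_tr (h : Rn.Tr Γ.tp) : ∃ N : Subgroup G, N.Normal ∧ N ≠ ⊥ ∧
    AE volume (HA.of (D.atl G)) fun y => Γ.bb y ≠ 0 ∧ ∀ g ∈ N, snf (Γ.bb y) (Γ.bb (g • y)) = 0 := by
  obtain ⟨N, h1, h2, h3⟩ := h
  exact ⟨N, h1, h2, h3.mono fun y hy => ⟨hy.1, fun g hg =>
    pow_eq_zero_iff two_ne_zero |>.1 (le_antisymm (Lg_eq_bot.1 (hy.2 g hg 0)) (sq_nonneg _))⟩⟩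

theorem of_shell {p : ℕ} {𝒯 : Tube (D.atl G) G p} (h : Rn.Shell 𝒯 Γ.tp) :
    AE volume (HA.of (D.atl G)) fun y => y ∈ 𝒯.M0 ∧ Γ.bb y ≠ 0 ∧
      ∀ᶠ x in 𝓝 y, snf (Γ.bb x) (Γ.bb y) = 0 → 𝒯.π y x = 0 := by
  refine Eqv.AE.mono h fun y hy => ⟨hy.1, hy.2.1.mem, ?_⟩
  obtain ⟨h1, h2, k, U, hU, h3⟩ := hy
  have h4 : ∀ᶠ x in 𝓝 y, Γ.bb x ≠ 0 := by
    obtain ⟨i, hi⟩ := A.cover (D.pr y)
    have h5 : ContinuousAt (fun x => fn (Γ.b i (D.co i y) ((A.e i).symm (A.e i (D.pr x))))) y :=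
      ContinuousAt.comp (g := fun z => fn (Γ.b i (D.co i y) ((A.e i).symm z)))
        ((Γ.hol_fn i _).continuousOn.continuousAt
          ((A.e i).open_target.mem_nhds ((A.e i).map_source hi)))
        (((A.e i).continuousAt hi).comp D.continuous_pr.continuousAt)
    have h6 : Γ.b i (D.co i y) (D.pr y) ≠ 0 := fun h0 =>
      h2.mem (by rw [← D.pt_co hi]; exact (Γ.bb_eq_zero hi).2 h0)
    filter_upwards [D.co_eventually hi, h5.eventually_ne (y := 0)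
      (by rw [(A.e i).left_inv hi]; exact mt fn_eq_zero.1 h6)] with x hx hx' h0
    rw [(A.e i).left_inv hx.1, ← hx.2] at hx'
    rw [← D.pt_co hx.1] at h0
    exact hx' (fn_eq_zero.2 ((Γ.bb_eq_zero hx.1).1 h0))
  filter_upwards [hU, h4, (𝒯.T_opn y h1).mem_nhds (𝒯.T_mem y h1)] with x hx hx0 hxT h0
  by_contra hne
  obtain ⟨a, ha⟩ := h3 _ (norm_pos_iff.2 hne)
  have := le_Lg (ha x hx hxT le_rfl hx0)
  rw [h0] at this
  simp at this

end GM

end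

end Crest.Agent.X261.Gauss
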